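import Vale.Agent.P219.H381.Vol
import Vale.Agent.P219.H817.T2

/-!
# P219: the Riemannian area of a boundary in a global chart and in the local charts
-/

open scoped Manifold ContDiff Topology ENNReal
open Set Filter MeasureTheory Module

set_option maxSynthPendingDepth 3
set_option linter.all false

noncomputable section

namespace Vale.Agent.P219H381

open Vale.Agent.P219.H381
open Vale.Agent.P255 (RMetric coefIn innerAt Gam Riem IsGeo)
open Vale.Agent.P219.RG (coefL IsMetricOn)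
open Vale.Agent.P219.Co (E pd RiemMetric SmoothDomain volDensity gradNorm leb riemVol riemArea)
open Vale.Agent.P219.Mfd (gram diffIn IsDefining)

section Lin

variable {V : Type} [NormedAddCommGroup V] [NormedSpace ℝ V]

theorem exists_mul {L₁ L₂ : V →L[ℝ] ℝ} (h₁ : L₁ ≠ 0) (h₂ : L₂ ≠ 0)
    (h : ∀ v, L₁ v < 0 → L₂ v ≤ 0) : ∃ c : ℝ, 0 < c ∧ L₂ = c • L₁ := by
  obtain ⟨v₁, hv₁⟩ : ∃ v, L₁ v ≠ 0 := by
    by_contra! h0
    exact h₁ (ContinuousLinearMap.ext h0)
  set v₀ : V := -(L₁ v₁)⁻¹ • v₁ with hv₀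
  have hL0 : L₁ v₀ = -1 := by
    rw [hv₀, map_smul, smul_eq_mul, neg_mul, inv_mul_cancel₀ hv₁]
  have hker : ∀ w, L₁ w = 0 → L₂ w = 0 := by
    intro w hw
    have h3 : ∀ s : ℝ, s * L₂ w + L₂ v₀ ≤ 0 := by
      intro s
      have := h (s • w + v₀) (by rw [map_add, map_smul, hw, hL0]; simp)
      rwa [map_add, map_smul, smul_eq_mul] at this
    by_contra hne
    have h4 := h3 ((1 - L₂ v₀) / L₂ w)
    rw [div_mul_cancel₀ _ hne] at h4
    linarith
  have hrep : ∀ u, L₂ u = (-(L₂ v₀)) * L₁ u := by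
    intro u
    have h5 := hker (u + L₁ u • v₀) (by rw [map_add, map_smul, hL0]; simp)
    rw [map_add, map_smul, smul_eq_mul] at h5
    linarith
  have h6 : L₂ v₀ ≤ 0 := h v₀ (by rw [hL0]; norm_num)
  have h7 : L₂ v₀ ≠ 0 := by
    intro h0
    apply h₂
    ext u
    rw [hrep u, h0]
    simp
  refine ⟨-(L₂ v₀), by rcases h6.lt_or_eq with h8 | h8; exacts [by linarith, absurd h8 h7], ?_⟩
  ext u
  rw [hrep u]
  simp

theorem differentials_prop {f₁ f₂ : V → ℝ} {x : V} (hd₁ : DifferentiableAt ℝ f₁ x)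
    (hd₂ : DifferentiableAt ℝ f₂ x) (h₁ : f₁ x = 0) (h₂ : f₂ x = 0) (hn₁ : fderiv ℝ f₁ x ≠ 0)
    (hn₂ : fderiv ℝ f₂ x ≠ 0) (h : ∀ᶠ y in 𝓝 x, f₁ y < 0 → f₂ y < 0) :
    ∃ c : ℝ, 0 < c ∧ fderiv ℝ f₂ x = c • fderiv ℝ f₁ x := by
  refine exists_mul hn₁ hn₂ fun v hv => ?_
  have hline : HasDerivAt (fun t : ℝ => x + t • v) v 0 := by
    have := ((hasDerivAt_id (0 : ℝ)).smul_const v).const_add x
    simpa using this
  have hlt : ∀ f : V → ℝ, DifferentiableAt ℝ f x → f x = 0 →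
      Tendsto (fun t : ℝ => f (x + t • v) / t) (𝓝[>] 0) (𝓝 (fderiv ℝ f x v)) := by
    intro f hf h0
    have h2 : HasDerivAt (fun t : ℝ => f (x + t • v)) (fderiv ℝ f x v) 0 := by
      have h3 : HasFDerivAt f (fderiv ℝ f x) (x + (0 : ℝ) • v) := by simpa using hf.hasFDerivAt
      exact h3.comp_hasDerivAt 0 hline
    have h5 : Tendsto (slope (fun t : ℝ => f (x + t • v)) 0) (𝓝[>] 0) (𝓝 (fderiv ℝ f x v)) :=
      (hasDerivAt_iff_tendsto_slope.1 h2).mono_left (nhdsWithin_mono _ (fun t ht => ne_of_gt ht))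
    refine h5.congr fun t => ?_
    rw [slope_def_field]
    simp only [zero_smul, add_zero, h0, sub_zero]
  have h3 := hlt f₁ hd₁ h₁
  have h4 := hlt f₂ hd₂ h₂
  have h2 : Tendsto (fun t : ℝ => x + t • v) (𝓝[>] 0) (𝓝 x) := by
    have : Continuous fun t : ℝ => x + t • v := by fun_prop
    have h := this.tendsto 0
    simp only [zero_smul, add_zero] at h
    exact h.mono_left nhdsWithin_le_nhds
  refine le_of_tendsto h4 ?_
  filter_upwards [h3.eventually (gt_mem_nhds hv), h2.eventually h, self_mem_nhdsWithin]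
    with t ht1 ht2 ht3
  have ht3' : (0 : ℝ) < t := ht3
  have h5 : f₁ (x + t • v) < 0 := by
    by_contra! h6
    exact absurd (div_nonneg h6 ht3'.le) (not_le.2 ht1)
  exact div_nonpos_of_nonpos_of_nonneg (ht2 h5).le ht3'.le

end Lin

variable {n : ℕ}

theorem norm_lin (L : E n →L[ℝ] ℝ) : ‖L‖ = √(∑ i, L (bv i) ^ 2) := by
  have h1 : ∀ i, L (bv i) = ((InnerProductSpace.toDual ℝ (E n)).symm L) i := by
    intro i
    have h2 : inner ℝ ((InnerProductSpace.toDual ℝ (E n)).symm L)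
        (EuclideanSpace.single i (1 : ℝ)) = L (EuclideanSpace.single i 1) :=
      InnerProductSpace.toDual_symm_apply
    rw [bv, ← h2, EuclideanSpace.inner_single_right]
    simp
  rw [← LinearIsometryEquiv.norm_map (InnerProductSpace.toDual ℝ (E n)).symm L,
    EuclideanSpace.norm_eq]
  congr 1
  refine Finset.sum_congr rfl fun i _ => ?_
  rw [h1 i, Real.norm_eq_abs, sq_abs]

theorem norm_fderiv_pd {f : E n → ℝ} {x : E n} (hf : DifferentiableAt ℝ f x) :
    ‖fderiv ℝ f x‖ = √(∑ i, pd i f x ^ 2) := by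
  rw [norm_lin]
  simp only [pd_eq hf]

theorem fderiv_ne {D : SmoothDomain n} {x : E n} (hx : D.ρ x = 0) : fderiv ℝ D.ρ x ≠ 0 := by
  obtain ⟨i, hi⟩ := D.regular x hx
  intro h0
  apply hi
  rw [pd_eq ((D.smooth.differentiable (by simp)) x), h0]
  simp

theorem frontier_eq (D : SmoothDomain n) : frontier D.carrier = {x | D.ρ x = 0} := by
  have ho : IsOpen D.carrier := isOpen_lt D.smooth.continuous continuous_const
  rw [ho.frontier_eq]
  ext x
  constructor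
  · rintro ⟨h1, h2⟩
    refine le_antisymm ?_ (not_lt.1 h2)
    have h3 : closure D.carrier ⊆ {x | D.ρ x ≤ 0} :=
      closure_minimal (fun y (hy : D.ρ y < 0) => show D.ρ y ≤ 0 from hy.le)
        (isClosed_le D.smooth.continuous continuous_const)
    exact h3 h1
  · intro hx
    refine ⟨Vale.Agent.P219.Coarea.zero_subset_closure (fun x hx => fderiv_ne hx) hx,
      fun h3 => ?_⟩
    have h4 : D.ρ x < 0 := h3
    rw [show D.ρ x = 0 from hx] at h4
    exact lt_irrefl _ h4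

open Matrix in
theorem ratio_eq {Γ : Matrix (Fin n) (Fin n) ℝ} {p q : Fin n → ℝ} {c : ℝ} (hc : 0 < c)
    (h : p = c • q) : √(p ⬝ᵥ Γ⁻¹ *ᵥ p) / √(∑ i, p i ^ 2) =
      √(q ⬝ᵥ Γ⁻¹ *ᵥ q) / √(∑ i, q i ^ 2) := by
  have h1 : p ⬝ᵥ Γ⁻¹ *ᵥ p = c ^ 2 * (q ⬝ᵥ Γ⁻¹ *ᵥ q) := by
    rw [h, Matrix.mulVec_smul, smul_dotProduct, dotProduct_smul, smul_eq_mul, smul_eq_mul]
    ring
  have h2 : ∑ i, p i ^ 2 = c ^ 2 * ∑ i, q i ^ 2 := by
    rw [h, Finset.mul_sum]
    refine Finset.sum_congr rfl fun i _ => ?_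
    simp only [Pi.smul_apply, smul_eq_mul]
    ring
  rw [h1, h2, Real.sqrt_mul (sq_nonneg c), Real.sqrt_mul (sq_nonneg c), Real.sqrt_sq hc.le]
  rw [mul_div_mul_left _ _ hc.ne']

end Vale.Agent.P219H381
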