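import Vale.Agent.P219.H381.Area

/-!
# P219: the Riemannian area of a boundary in a global chart and in the local charts, 2
-/

open scoped Manifold ContDiff Topology ENNReal
open Set Filter MeasureTheory Module

set_option maxSynthPendingDepth 3
set_option linter.all false

noncomputable section

namespace Vale.Agent.P219H381

open Vale.Agent.P219.H381
open Vale.Agent.P255 (RMetric coefIn innerAt Gam Riem IsGeo)
open Vale.Agent.P219.RG (coefL IsMetricOn)
open Vale.Agent.P219.Co (E pd RiemMetric SmoothDomain volDensity gradNorm leb riemVol riemArea)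
open Vale.Agent.P219.Mfd (gram diffIn IsDefining)

variable {n : ℕ} {M : Type} [TopologicalSpace M] [ChartedSpace (E n) M]
  [IsManifold 𝓘(ℝ, E n) ∞ M]

omit [IsManifold 𝓘(ℝ, E n) ∞ M] in
theorem defining_zero {Ω U : Set M} {f : M → ℝ} (hΩ : IsOpen Ω)
    (hf : IsDefining (V := E n) Ω U f) {p : M} (hp : p ∈ frontier Ω) (hpU : p ∈ U) : f p = 0 := by
  have hmem : ∀ y ∈ U, (y ∈ Ω ↔ f y < 0) := by
    intro y hy
    constructor
    · intro h
      have : y ∈ Ω ∩ U := ⟨h, hy⟩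
      rw [hf.neg] at this
      exact this.2
    · intro h
      have : y ∈ {x ∈ U | f x < 0} := ⟨hy, h⟩
      rw [← hf.neg] at this
      exact this.1
  rw [hΩ.frontier_eq] at hp
  have h1 : 0 ≤ f p := by
    by_contra! h2
    exact hp.2 ((hmem p hpU).2 h2)
  refine le_antisymm ?_ h1
  by_contra! h2
  have hc : ContinuousAt f p := hf.smooth.continuousOn.continuousAt (hf.isOpen.mem_nhds hpU)
  have h3 : ∀ᶠ z in 𝓝 p, z ∈ U ∧ 0 < f z := by
    filter_upwards [hf.isOpen.mem_nhds hpU, hc.eventually (lt_mem_nhds h2)] with z hz1 hz2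
      using ⟨hz1, hz2⟩
  obtain ⟨z, hz1, hz2⟩ := mem_closure_iff_nhds.1 hp.1 _ h3
  exact absurd ((hmem z hz1.1).1 hz2) (not_lt.2 hz1.2.le)

variable (g : RMetric (E n) M) (Ψ : E n ≃ₘ^∞⟮𝓘(ℝ, E n), 𝓘(ℝ, E n)⟯ M) {a : M}

theorem isOpen_of_pre {Ω : Set M} {D : SmoothDomain n} (hD : D.carrier = Ψ ⁻¹' Ω) : IsOpen Ω := by
  have h1 : IsOpen D.carrier := isOpen_lt D.smooth.continuous continuous_const
  rw [hD] at h1
  exact (Ψ.toHomeomorph.isOpen_preimage).1 h1

theorem frontier_pre {Ω : Set M} {D : SmoothDomain n} (hD : D.carrier = Ψ ⁻¹' Ω) {x : E n} :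
    Ψ x ∈ frontier Ω ↔ D.ρ x = 0 := by
  have h1 : frontier D.carrier = Ψ ⁻¹' (frontier Ω) := by
    rw [hD]; exact (Ψ.toHomeomorph.preimage_frontier Ω).symm
  rw [frontier_eq] at h1
  have : x ∈ {x | D.ρ x = 0} ↔ x ∈ Ψ ⁻¹' (frontier Ω) := by rw [h1]
  exact this.symm

theorem contDiffAt_rho2 {D : SmoothDomain n} {u : E n} (hu : u ∈ (chartAt (E n) a).target) :
    ContDiffAt ℝ ∞ (fun u => D.ρ (sig Ψ.symm a u)) u :=
  D.smooth.contDiffAt.comp u (contDiffAt_sig Ψ hu)

theorem fderiv_rho2_ne {D : SmoothDomain n} {u : E n} (hu : u ∈ (chartAt (E n) a).target)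
    (h0 : D.ρ (sig Ψ.symm a u) = 0) : fderiv ℝ (fun u => D.ρ (sig Ψ.symm a u)) u ≠ 0 := by
  intro hz
  apply fderiv_ne h0
  have hs := (contDiffAt_sig Ψ hu).differentiableAt (by simp)
  have hρ := (D.smooth.differentiable (by simp)) (sig Ψ.symm a u)
  have h1 : HasFDerivAt (fun u => D.ρ (sig Ψ.symm a u))
      ((fderiv ℝ D.ρ (sig Ψ.symm a u)).comp (fderiv ℝ (sig Ψ.symm a) u)) u :=
    hρ.hasFDerivAt.comp u hs.hasFDerivAt
  rw [h1.fderiv] at hz
  ext v
  have hx := sig_mem Ψ hu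
  have h2 := fderiv_sig_tau Ψ hx v
  rw [tau_sig Ψ hu] at h2
  rw [← h2]
  exact congrArg (fun L : E n →L[ℝ] ℝ => L (fderiv ℝ (tau Ψ a) (sig Ψ.symm a u) v)) hz

theorem contDiffAt_local {Ω U : Set M} {f : M → ℝ} (hf : IsDefining (V := E n) Ω U f) {u : E n}
    (hu : u ∈ (chartAt (E n) a).target) (hU : (chartAt (E n) a).symm u ∈ U) :
    ContDiffAt ℝ ∞ (fun x => f ((chartAt (E n) a).symm x)) u := by
  have h1 : ContMDiffAt 𝓘(ℝ, E n) 𝓘(ℝ, E n) ∞ (chartAt (E n) a).symm u :=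
    (contMDiffOn_chart_symm (I := 𝓘(ℝ, E n)) (n := ∞) (x := a)).contMDiffAt
      ((chartAt (E n) a).open_target.mem_nhds hu)
  have h2 : ContMDiffAt 𝓘(ℝ, E n) 𝓘(ℝ, ℝ) ∞ f ((chartAt (E n) a).symm u) :=
    hf.smooth.contMDiffAt (hf.isOpen.mem_nhds hU)
  exact (h2.comp u h1).contDiffAt

theorem fderiv_local_ne {Ω U : Set M} {f : M → ℝ} (hf : IsDefining (V := E n) Ω U f) {u : E n}
    (hu : u ∈ (chartAt (E n) a).target) (hU : (chartAt (E n) a).symm u ∈ U)
    (hfr : (chartAt (E n) a).symm u ∈ frontier Ω) :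
    fderiv ℝ (fun x => f ((chartAt (E n) a).symm x)) u ≠ 0 := by
  intro hz
  set p := (chartAt (E n) a).symm u with hp
  apply hf.regular p ⟨hfr, hU⟩
  have hps : p ∈ (chartAt (E n) a).source := (chartAt (E n) a).map_target hu
  have hcu : chartAt (E n) a p = u := (chartAt (E n) a).right_inv hu
  have h1 : MDifferentiableAt 𝓘(ℝ, E n) 𝓘(ℝ, E n) (chartAt (E n) a) p :=
    ((contMDiffOn_chart (I := 𝓘(ℝ, E n)) (n := ∞) (x := a)).contMDiffAt
      ((chartAt (E n) a).open_source.mem_nhds hps)).mdifferentiableAt (by simp)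
  have h2 : MDifferentiableAt 𝓘(ℝ, E n) 𝓘(ℝ, ℝ) (fun x => f ((chartAt (E n) a).symm x))
      (chartAt (E n) a p) := by
    rw [hcu]
    exact ((contDiffAt_local hf hu hU).differentiableAt (by simp)).mdifferentiableAt
  have h3 : f =ᶠ[𝓝 p] (fun x => f ((chartAt (E n) a).symm x)) ∘ (chartAt (E n) a) := by
    filter_upwards [(chartAt (E n) a).open_source.mem_nhds hps] with q hq
    simp only [Function.comp]
    rw [(chartAt (E n) a).left_inv hq]
  rw [h3.mfderiv_eq, mfderiv_comp p h2 h1, mfderiv_eq_fderiv, hcu, hz]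
  ext v
  rfl

theorem chart_defining {Ω : Set M} {D : SmoothDomain n} (hD : D.carrier = Ψ ⁻¹' Ω) {U : Set M}
    {f : M → ℝ} (hf : IsDefining (V := E n) Ω U f) {u : E n}
    (hu : u ∈ (chartAt (E n) a).target) (hU : (chartAt (E n) a).symm u ∈ U)
    (h0 : D.ρ (sig Ψ.symm a u) = 0) :
    ∃ c : ℝ, 0 < c ∧ diffIn f a u = c • fun k => pd k (fun u => D.ρ (sig Ψ.symm a u)) u := by
  have hΩ := isOpen_of_pre Ψ hD
  have hfr : (chartAt (E n) a).symm u ∈ frontier Ω := by
    rw [← Psi_sig Ψ]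
    exact (frontier_pre Ψ hD).2 h0
  have hd₁ := (contDiffAt_rho2 Ψ (D := D) hu).differentiableAt (by simp)
  have hd₂ := (contDiffAt_local hf hu hU).differentiableAt (by simp)
  have hz := defining_zero hΩ hf hfr hU
  obtain ⟨c, hc, he⟩ := differentials_prop hd₁ hd₂ h0 hz (fderiv_rho2_ne Ψ hu h0)
    (fderiv_local_ne hf hu hU hfr) (by
      have hcs : ContinuousAt (chartAt (E n) a).symm u := (chartAt (E n) a).symm.continuousAt hu
      filter_upwards [hcs.eventually (hf.isOpen.mem_nhds hU)] with y hy hy0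
      have h1 : sig Ψ.symm a y ∈ D.carrier := hy0
      rw [hD] at h1
      have h2 : (chartAt (E n) a).symm y ∈ Ω := by
        rw [← Psi_sig Ψ]; exact h1
      have h3 : (chartAt (E n) a).symm y ∈ Ω ∩ U := ⟨h2, hy⟩
      rw [hf.neg] at h3
      exact h3.2)
  refine ⟨c, hc, ?_⟩
  funext k
  simp only [diffIn, Pi.smul_apply, smul_eq_mul]
  rw [pd_eq hd₂, pd_eq hd₁, he]
  rfl

variable [MeasurableSpace M] [BorelSpace M]

include Ψ in
theorem measurableSet_chart {s : Set M} (hs : MeasurableSet s)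
    (hsa : s ⊆ (chartAt (E n) a).source) : MeasurableSet ((chartAt (E n) a) '' s) := by
  rw [chart_image Ψ s]
  have hs' : MeasurableSet (Ψ ⁻¹' s) := measurable_Psi Ψ hs
  refine hs'.image_of_continuousOn_injOn ?_ ?_
  · exact (chgM Ψ a).smS.continuousOn.mono (preimage_mono hsa)
  · exact (chg_injOn (chgM Ψ a)).mono (preimage_mono hsa)

open Matrix in
/-- the Riemannian area of a piece of the boundary in a local chart, computed in the global
chart -/
theorem area_chart {Ω : Set M} {D : SmoothDomain n} (hD : D.carrier = Ψ ⁻¹' Ω) {U : Set M}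
    {f : M → ℝ} (hf : IsDefining (V := E n) Ω U f) {s : Set M} (hs : MeasurableSet s)
    (hsU : s ⊆ U) (hsa : s ⊆ (chartAt (E n) a).source) :
    ∫⁻ u in (chartAt (E n) a) '' (s ∩ frontier Ω), ENNReal.ofReal
      (√(gram g a u).det * √(diffIn f a u ⬝ᵥ (gram g a u)⁻¹ *ᵥ diffIn f a u) /
        √(∑ i, diffIn f a u i ^ 2)) ∂(μHE[n - 1] : Measure (E n)) =
    ∫⁻ x in {x | D.ρ x = 0} ∩ Ψ ⁻¹' s, ENNReal.ofReal
      (volDensity (pl g Ψ) x * gradNorm (pl g Ψ) D.ρ x / √(∑ i, pd i D.ρ x ^ 2))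
        ∂(μHE[n - 1] : Measure (E n)) := by
  classical
  set S : Set (E n) := Ψ ⁻¹' (chartAt (E n) a).source with hS
  set T : Set (E n) := (chartAt (E n) a).target with hT
  set A : Set (E n) := (chartAt (E n) a) '' s with hA
  have c := chgM Ψ a
  have hAm : MeasurableSet A := measurableSet_chart Ψ hs hsa
  have hAT : A ⊆ T := by rintro _ ⟨p, hp, rfl⟩; exact (chartAt (E n) a).map_source (hsa hp)
  have hs' : MeasurableSet (Ψ ⁻¹' s) := measurable_Psi Ψ hs
  set ρ₂ : E n → ℝ := fun u => D.ρ (sig Ψ.symm a u) with hρ₂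
  set q : E n → Fin n → ℝ := fun u k => pd k ρ₂ u with hq
  set G : E n → ℝ := fun u => volDensity (pl g Ψ) (sig Ψ.symm a u) /
    |(fderiv ℝ (tau Ψ a) (sig Ψ.symm a u)).det| * gradNorm (pl g Ψ) D.ρ (sig Ψ.symm a u) with hG
  have hG2 : ∀ u ∈ T, G u = √(gram g a u).det * √(q u ⬝ᵥ (gram g a u)⁻¹ *ᵥ q u) := by
    intro u hu
    have hx := sig_mem Ψ hu
    have hd0 := det_ne_zero g Ψ hx
    simp only [hG]
    rw [volDensity_pl g Ψ hx, gradNorm_pl g Ψ hx ((D.smooth.differentiable (by simp)) _),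
      tau_sig Ψ hu, mul_div_cancel_left₀ _ (abs_ne_zero.2 hd0)]
  have hGc : ContinuousOn G T := by
    have h1 : ContinuousOn (sig Ψ.symm a) T := c.smT.continuousOn
    have h2 : ContinuousOn (fun u => (fderiv ℝ (tau Ψ a) (sig Ψ.symm a u)).det) T := by
      intro u hu
      have h3 : ContinuousAt (fderiv ℝ (tau Ψ a)) (sig Ψ.symm a u) :=
        ((contDiffAt_tau Ψ (sig_mem Ψ hu)).fderiv_right (m := ∞) (by simp)).continuousAt
      have h4 : ContinuousAt (sig Ψ.symm a) u := (contDiffAt_sig Ψ hu).continuousAt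
      exact (ContinuousLinearMap.continuous_det.continuousAt.comp
        (h3.comp h4)).continuousWithinAt
    have h5 : ContinuousOn (fun u => volDensity (pl g Ψ) (sig Ψ.symm a u)) T :=
      (Vale.Agent.P219.Co.volDensity_cont _).comp_continuousOn h1
    have h6 : ContinuousOn (fun u => gradNorm (pl g Ψ) D.ρ (sig Ψ.symm a u)) T :=
      (Vale.Agent.P219.Co.gradNorm_cont _ (D.smooth.of_le (by exact_mod_cast le_top))).comp_continuousOn h1
    exact (h5.div h2.abs (fun u hu => abs_ne_zero.2 (det_ne_zero g Ψ (sig_mem Ψ hu)))).mul h6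
  set F : E n → ℝ≥0∞ := A.indicator (fun u => ENNReal.ofReal (T.piecewise G 0 u)) with hF
  have hFm : Measurable F := by
    refine Measurable.indicator ?_ hAm
    exact (hGc.measurable_piecewise continuousOn_const c.openT.measurableSet).ennreal_ofReal
  have hF1 : ∀ u ∈ A, F u = ENNReal.ofReal (√(gram g a u).det * √(q u ⬝ᵥ (gram g a u)⁻¹ *ᵥ q u)) := by
    intro u hu
    rw [hF, indicator_of_mem hu, Set.piecewise_eq_of_mem _ _ _ (hAT hu), hG2 u (hAT hu)]
  have key := chg_hyper c (ρ₁ := D.ρ) (ρ₂ := ρ₂) D.smooth.contDiffOn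
    (fun u hu => (contDiffAt_rho2 Ψ hu).contDiffWithinAt)
    (fun x hx => by simp only [hρ₂]; rw [sig_tau Ψ hx])
    (fun u hu h0 => fderiv_rho2_ne Ψ hu h0) (fun x hx h0 => fderiv_ne h0) hFm
    (fun u hu => by rw [hF, indicator_of_notMem (fun h => hu (hAT h))])
  rw [finrank_euclideanSpace, Fintype.card_fin] at key
  have hAi : ∀ x ∈ S, (tau Ψ a x ∈ A ↔ Ψ x ∈ s) := by
    intro x hx
    constructor
    · rintro ⟨p, hp, he⟩
      have : p = Ψ x := (chartAt (E n) a).injOn (hsa hp) hx he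
      rw [← this]; exact hp
    · intro h; exact ⟨Ψ x, h, rfl⟩
  -- the left side
  have hL : ∫⁻ x in S ∩ {x | D.ρ x = 0}, ENNReal.ofReal
      (|(fderiv ℝ (tau Ψ a) x).det| / ‖fderiv ℝ D.ρ x‖) * F (tau Ψ a x)
        ∂(μHE[n - 1] : Measure (E n)) =
      ∫⁻ x in {x | D.ρ x = 0} ∩ Ψ ⁻¹' s, ENNReal.ofReal
      (volDensity (pl g Ψ) x * gradNorm (pl g Ψ) D.ρ x / √(∑ i, pd i D.ρ x ^ 2))
        ∂(μHE[n - 1] : Measure (E n)) := by
    have hm1 : MeasurableSet (S ∩ {x | D.ρ x = 0}) :=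
      measurableSet_zero c.openS D.smooth.continuous.continuousOn
    have hm2 : MeasurableSet ({x | D.ρ x = 0} ∩ Ψ ⁻¹' s) :=
      (isClosed_eq D.smooth.continuous continuous_const).measurableSet.inter hs'
    rw [← lintegral_indicator hm1, ← lintegral_indicator hm2]
    congr 1
    funext x
    by_cases hx : x ∈ {x | D.ρ x = 0} ∩ Ψ ⁻¹' s
    · have hxS : x ∈ S := hsa hx.2
      have hdρ := (D.smooth.differentiable (by simp)) x
      rw [indicator_of_mem hx, indicator_of_mem (show x ∈ S ∩ {x | D.ρ x = 0} from ⟨hxS, hx.1⟩),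
        hF1 _ ((hAi x hxS).2 hx.2), ← ENNReal.ofReal_mul (by positivity),
        volDensity_pl g Ψ hxS, gradNorm_pl g Ψ hxS hdρ, norm_fderiv_pd hdρ]
      congr 1
      ring
    · rw [indicator_of_notMem hx]
      by_cases hx2 : x ∈ S ∩ {x | D.ρ x = 0}
      · rw [indicator_of_mem hx2]
        have : tau Ψ a x ∉ A := fun h => hx ⟨hx2.2, (hAi x hx2.1).1 h⟩
        rw [hF, indicator_of_notMem this, mul_zero]
      · rw [indicator_of_notMem hx2]
  -- the right side
  have hR : ∫⁻ u in T ∩ {u | ρ₂ u = 0}, ENNReal.ofReal (1 / ‖fderiv ℝ ρ₂ u‖) * F u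
        ∂(μHE[n - 1] : Measure (E n)) =
      ∫⁻ u in (chartAt (E n) a) '' (s ∩ frontier Ω), ENNReal.ofReal
      (√(gram g a u).det * √(diffIn f a u ⬝ᵥ (gram g a u)⁻¹ *ᵥ diffIn f a u) /
        √(∑ i, diffIn f a u i ^ 2)) ∂(μHE[n - 1] : Measure (E n)) := by
    have hm1 : MeasurableSet (T ∩ {u | ρ₂ u = 0}) :=
      measurableSet_zero c.openT (fun u hu => (contDiffAt_rho2 Ψ hu).continuousAt.continuousWithinAt)
    have hm2 : MeasurableSet ((chartAt (E n) a) '' (s ∩ frontier Ω)) :=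
      measurableSet_chart Ψ (hs.inter isClosed_frontier.measurableSet)
        (inter_subset_left.trans hsa)
    have hmem : ∀ u, u ∈ (chartAt (E n) a) '' (s ∩ frontier Ω) ↔ u ∈ A ∧ ρ₂ u = 0 := by
      intro u
      constructor
      · rintro ⟨p, ⟨hp1, hp2⟩, rfl⟩
        refine ⟨⟨p, hp1, rfl⟩, ?_⟩
        have h1 : Ψ (sig Ψ.symm a (chartAt (E n) a p)) = p := by
          rw [Psi_sig, (chartAt (E n) a).left_inv (hsa hp1)]
        exact (frontier_pre Ψ hD).1 (by rw [h1]; exact hp2)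
      · rintro ⟨⟨p, hp1, rfl⟩, h2⟩
        have h1 : Ψ (sig Ψ.symm a (chartAt (E n) a p)) = p := by
          rw [Psi_sig, (chartAt (E n) a).left_inv (hsa hp1)]
        refine ⟨p, ⟨hp1, ?_⟩, rfl⟩
        have h3 := (frontier_pre Ψ hD).2 h2
        rwa [h1] at h3
    rw [← lintegral_indicator hm1, ← lintegral_indicator hm2]
    congr 1
    funext u
    by_cases hu : u ∈ (chartAt (E n) a) '' (s ∩ frontier Ω)
    · obtain ⟨huA, hu0⟩ := (hmem u).1 hu
      have huT := hAT huA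
      have huU : (chartAt (E n) a).symm u ∈ U := by
        obtain ⟨p, hp, rfl⟩ := huA
        rw [(chartAt (E n) a).left_inv (hsa hp)]
        exact hsU hp
      obtain ⟨cc, hcc, he⟩ := chart_defining Ψ hD hf huT huU hu0
      rw [indicator_of_mem hu, indicator_of_mem (show u ∈ T ∩ {u | ρ₂ u = 0} from ⟨huT, hu0⟩),
        hF1 u huA, ← ENNReal.ofReal_mul (by positivity), mul_div_assoc, ratio_eq hcc he,
        norm_fderiv_pd ((contDiffAt_rho2 Ψ huT).differentiableAt (by simp))]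
      congr 1
      ring
    · rw [indicator_of_notMem hu]
      by_cases hu2 : u ∈ T ∩ {u | ρ₂ u = 0}
      · rw [indicator_of_mem hu2]
        have : u ∉ A := fun h => hu ((hmem u).2 ⟨h, hu2.2⟩)
        rw [hF, indicator_of_notMem this, mul_zero]
      · rw [indicator_of_notMem hu2]
  rw [← hR, ← hL]
  exact key.symm

end Vale.Agent.P219H381
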