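import Vale.Agent.P219.H381.Dif
import Vale.Agent.P219.CoDefs
import Vale.Agent.P219.CoIsoK
import Vale.Agent.P219.CH.CoComplete

/-!
# P219: comparison of the tensor calculus in coordinates (index notation and index-free)
-/

open scoped Manifold ContDiff Topology
open Set Filter

set_option maxSynthPendingDepth 3
set_option linter.all false

noncomputable section

namespace Vale.Agent.P219.H381

open Vale.Agent.P219.RG
open Vale.Agent.P255 (RMetric coefIn innerAt Gam Riem CovDer curveIn fieldIn IsGeo)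

section Gen

variable {E : Type} [NormedAddCommGroup E] [NormedSpace ℝ E] [FiniteDimensional ℝ E]
variable {G : E → E →L[ℝ] E →L[ℝ] ℝ} {U : Set E}

/-- the curvature tensor is invariant under isometric changes of coordinates -/
theorem curv_trans (h : IsMetricOn G U) {G₂ : E → E →L[ℝ] E →L[ℝ] ℝ} {U₂ : Set E}
    (h₂ : IsMetricOn G₂ U₂) {τ : E → E} {u : E} (hu : u ∈ U) (hu₂ : ∀ᶠ x in 𝓝 u, τ x ∈ U₂)
    (hτ : ∀ᶠ x in 𝓝 u, ContDiffAt ℝ ∞ τ x)
    (hiso : ∀ᶠ x in 𝓝 u, ∀ v w, G₂ (τ x) (fderiv ℝ τ x v) (fderiv ℝ τ x w) = G x v w)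
    (x y z : E) :
    fderiv ℝ τ u (curv G u x y z) =
      curv G₂ (τ u) (fderiv ℝ τ u x) (fderiv ℝ τ u y) (fderiv ℝ τ u z) := by
  have hτ0 := hτ.self_of_nhds
  have hu₂0 := hu₂.self_of_nhds
  have hd0 : HasFDerivAt τ (fderiv ℝ τ u) u := (hτ0.differentiableAt (by simp)).hasFDerivAt
  have hc1 : ContDiffAt ℝ ∞ (fderiv ℝ τ) u := hτ0.fderiv_right (m := ∞) (by simp)
  have hc2 : ContDiffAt ℝ ∞ (fderiv ℝ (fderiv ℝ τ)) u := hc1.fderiv_right (m := ∞) (by simp)
  have hd1 : HasFDerivAt (fderiv ℝ τ) (fderiv ℝ (fderiv ℝ τ) u) u :=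
    (hc1.differentiableAt (by simp)).hasFDerivAt
  have hd2 : HasFDerivAt (fun p : E => (fderiv ℝ (fderiv ℝ τ) p : E →L[ℝ] E →L[ℝ] E))
      (fderiv ℝ (fderiv ℝ (fderiv ℝ τ)) u : E →L[ℝ] E →L[ℝ] E →L[ℝ] E) u :=
    (hc2.differentiableAt (by simp)).hasFDerivAt
  have s2 : ∀ a b, fderiv ℝ (fderiv ℝ τ) u a b = fderiv ℝ (fderiv ℝ τ) u b a := fun a b =>
    (hτ0.isSymmSndFDerivAt (by simpa only [minSmoothness_of_isRCLikeNormedField] using two_le_infty)) a b
  have s3 : ∀ a b, fderiv ℝ (fderiv ℝ (fderiv ℝ τ)) u a b =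
      fderiv ℝ (fderiv ℝ (fderiv ℝ τ)) u b a := fun a b =>
    (hc1.isSymmSndFDerivAt (by simpa only [minSmoothness_of_isRCLikeNormedField] using two_le_infty)) a b
  have hB : HasFDerivAt (chrisB G) (fderiv ℝ (chrisB G) u) u :=
    (h.differentiableAt_chrisB hu).hasFDerivAt
  have hB₂ : HasFDerivAt (fun p => chrisB G₂ (τ p)) ((fderiv ℝ (chrisB G₂) (τ u)).comp
      (fderiv ℝ τ u)) u :=
    HasFDerivAt.comp (f := τ) (g := chrisB G₂) u (h₂.differentiableAt_chrisB hu₂0).hasFDerivAt hd0
  have htr : ∀ a b, (fun p => fderiv ℝ τ p (chrisB G p a b)) =ᶠ[𝓝 u]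
      fun p => chrisB G₂ (τ p) (fderiv ℝ τ p a) (fderiv ℝ τ p b) + fderiv ℝ (fderiv ℝ τ) p a b := by
    intro a b
    filter_upwards [h.mem_nhds hu, hu₂, hτ, hiso.eventually_nhds] with p h1 h2 h3 h4
    rw [chrisB_apply, chrisB_apply]
    exact h.chris_trans h₂ h1 h2 h3 h4 a b
  have htr0 : ∀ a b, fderiv ℝ τ u (chrisB G u a b) = chrisB G₂ (τ u) (fderiv ℝ τ u a)
      (fderiv ℝ τ u b) + fderiv ℝ (fderiv ℝ τ) u a b := fun a b => (htr a b).self_of_nhds
  have k := fun (q : E) => (hasFDerivAt_const (𝕜 := ℝ) q u)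
  have key : ∀ x y z, fderiv ℝ (fderiv ℝ τ) u x (chrisB G u y z)
        + fderiv ℝ τ u (fderiv ℝ (chrisB G) u x y z) =
      fderiv ℝ (chrisB G₂) (τ u) (fderiv ℝ τ u x) (fderiv ℝ τ u y) (fderiv ℝ τ u z)
        + chrisB G₂ (τ u) (fderiv ℝ (fderiv ℝ τ) u x y) (fderiv ℝ τ u z)
        + chrisB G₂ (τ u) (fderiv ℝ τ u y) (fderiv ℝ (fderiv ℝ τ) u x z)
        + fderiv ℝ (fderiv ℝ (fderiv ℝ τ)) u x y z := by
    intro x y z
    have l1 := (hd1.clm_apply ((hB.clm_apply (k y)).clm_apply (k z)))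
    have r1 := (hB₂.clm_apply (hd1.clm_apply (k y))).clm_apply (hd1.clm_apply (k z))
    have r2' := HasFDerivAt.clm_apply (G := E) (H := E →L[ℝ] E) hd2 (k y)
    have r2 := HasFDerivAt.clm_apply (G := E) (H := E) r2' (k z)
    have e1 := Filter.EventuallyEq.fderiv_eq (𝕜 := ℝ) (htr y z)
    rw [l1.fderiv, (r1.fun_add r2).fderiv] at e1
    have e2 := DFunLike.congr_fun e1 x
    simp only [add_apply, ContinuousLinearMap.comp_apply, ContinuousLinearMap.flip_apply,
      ContinuousLinearMap.flip_add, ContinuousLinearMap.comp_zero, zero_add] at e2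
    rw [← sub_eq_zero] at e2 ⊢
    rw [← e2]
    abel
  have k1 := key x y z
  have k2 := key y x z
  rw [s3 y x, s2 y x] at k2
  rw [h.curv_eq hu, h₂.curv_eq hu₂0, map_sub, map_add, map_sub, htr0 x, htr0 y, htr0 y, htr0 x,
    map_add, map_add]
  have e3 : fderiv ℝ τ u (fderiv ℝ (chrisB G) u x y z) - fderiv ℝ τ u (fderiv ℝ (chrisB G) u y x z)
      = (fderiv ℝ (fderiv ℝ τ) u x (chrisB G u y z)
        + fderiv ℝ τ u (fderiv ℝ (chrisB G) u x y z))
        - (fderiv ℝ (fderiv ℝ τ) u y (chrisB G u x z)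
        + fderiv ℝ τ u (fderiv ℝ (chrisB G) u y x z))
        - fderiv ℝ (fderiv ℝ τ) u x (chrisB G u y z)
        + fderiv ℝ (fderiv ℝ τ) u y (chrisB G u x z) := by abel
  rw [e3, k1, k2]
  abel

end Gen

section Idx

open Vale.Agent.P219.Co

variable {n : ℕ}

/-- the basis vector -/
abbrev bv (i : Fin n) : E n := EuclideanSpace.single i 1

theorem sum_bv (v : E n) : ∑ i, v i • (bv i : E n) = v := by
  have := (EuclideanSpace.basisFun (Fin n) ℝ).sum_repr v
  simpa using this

theorem sum_bv' (v : Fin n → ℝ) (k : Fin n) : (∑ i, v i • (bv i : E n)) k = v k := by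
  have := congrArg (fun w : E n => w k) (sum_bv (WithLp.toLp 2 v))
  exact this

open Matrix in
/-- the metric of `ℝⁿ` with the given coefficients -/
def toRiem (H : E n → E n →L[ℝ] E n →L[ℝ] ℝ) (h : IsMetricOn H univ) : RiemMetric n where
  g x := Matrix.of fun i j => H x (bv i) (bv j)
  smooth i j := by
    unfold Smooth
    have h1 : ContDiff ℝ ∞ H := contDiffOn_univ.1 h.smooth
    exact (h1.clm_apply contDiff_const).clm_apply contDiff_const
  pos x := by
    refine Matrix.PosDef.of_dotProduct_mulVec_pos ?_ ?_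
    · ext i j
      simp only [Matrix.conjTranspose_apply, Matrix.of_apply, star_trivial]
      exact h.symm x (mem_univ x) _ _
    · intro v hv
      have e : star v ⬝ᵥ (Matrix.of fun i j => H x (bv i) (bv j)) *ᵥ v =
          H x (∑ i, v i • (bv i : E n)) (∑ i, v i • (bv i : E n)) := by
        simp only [map_sum, map_smul, FunLike.coe_sum, Finset.sum_apply, FunLike.coe_smul, Pi.smul_apply,
          smul_eq_mul,
          dotProduct, Matrix.mulVec, Matrix.of_apply, Pi.star_apply, star_trivial, Finset.mul_sum]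
        rw [Finset.sum_comm]
        refine Finset.sum_congr rfl fun i _ => Finset.sum_congr rfl fun j _ => ?_
        ring
      rw [e]
      apply h.pos x (mem_univ x)
      intro h0
      apply hv
      funext k
      have := congrArg (fun w : E n => w k) h0
      simp only [sum_bv'] at this
      exact this

theorem pd_eq {f : E n → ℝ} {x : E n} (hf : DifferentiableAt ℝ f x) (i : Fin n) :
    pd i f x = fderiv ℝ f x (bv i) :=
  hf.lineDeriv_eq_fderiv

variable {H : E n → E n →L[ℝ] E n →L[ℝ] ℝ} (h : IsMetricOn H univ)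

theorem toRiem_apply (x : E n) (i j : Fin n) : (toRiem H h).g x i j = H x (bv i) (bv j) := rfl

theorem pd_toRiem (i j l : Fin n) (x : E n) :
    pd i (fun y => (toRiem H h).g y j l) x = fderiv ℝ H x (bv i) (bv j) (bv l) := by
  rw [pd_eq ((((toRiem H h).smooth j l).differentiable (by simp)) x)]
  exact h.fderiv_apply_apply (mem_univ x) _ _ _

/-- bilinear expansion -/
theorem H_sum_left (x v w : E n) : H x v w = ∑ m, v m * H x (bv m) w := by
  conv_lhs => rw [← sum_bv v]
  simp only [map_sum, map_smul, FunLike.coe_sum, Finset.sum_apply, FunLike.coe_smul,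
    Pi.smul_apply, smul_eq_mul]

open Matrix in
theorem christoffel_toRiem (k i j : Fin n) (x : E n) :
    christoffel (toRiem H h) k i j x = chris H x (bv i) (bv j) k := by
  set c := chris H x (bv i) (bv j) with hc
  have hS : ∀ l, ((toRiem H h).g x *ᵥ (fun m => c m)) l = 2⁻¹ *
      (pd i (fun y => (toRiem H h).g y j l) x + pd j (fun y => (toRiem H h).g y i l) x -
    pd l (fun y => (toRiem H h).g y i j) x) := by
    intro l
    rw [pd_toRiem, pd_toRiem, pd_toRiem]
    have h1 := h.chris_spec (mem_univ x) (bv i) (bv j) (bv l)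
    rw [H_sum_left] at h1
    simp only [Matrix.mulVec, dotProduct, toRiem_apply]
    have h2 : ∑ m, H x (bv l) (bv m) * c m = ∑ m, c m * H x (bv m) (bv l) := by
      refine Finset.sum_congr rfl fun m _ => ?_
      rw [h.symm x (mem_univ x) (bv l) (bv m), mul_comm]
    rw [h2, ← hc] at *
    rw [h1]
    ring
  have hdet : IsUnit ((toRiem H h).g x).det := (Matrix.isUnit_iff_isUnit_det _).1 ((toRiem H h).pos x).isUnit
  have h3 : (fun m => c m) = ((toRiem H h).g x)⁻¹ *ᵥ ((toRiem H h).g x *ᵥ (fun m => c m)) := by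
    rw [Matrix.mulVec_mulVec, Matrix.nonsing_inv_mul _ hdet, Matrix.one_mulVec]
  have h4 := congrFun h3 k
  simp only at h4
  rw [h4]
  unfold christoffel
  simp only [Matrix.mulVec, dotProduct] at hS ⊢
  rw [Finset.mul_sum]
  refine Finset.sum_congr rfl fun l _ => ?_
  rw [hS l]
  ring

theorem chris_comp (x v w : E n) (k : Fin n) :
    chris H x v w k = ∑ i, ∑ j, christoffel (toRiem H h) k i j x * v i * w j := by
  conv_lhs => rw [← sum_bv v, ← sum_bv w, ← chrisB_apply]
  simp only [map_sum, map_smul, FunLike.coe_sum, Finset.sum_apply, FunLike.coe_smul,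
    Pi.smul_apply, smul_eq_mul, chrisB_apply]
  rw [WithLp.ofLp_sum, Finset.sum_apply, Finset.sum_comm]
  refine Finset.sum_congr rfl fun i _ => ?_
  rw [WithLp.ofLp_smul, Pi.smul_apply, WithLp.ofLp_sum, Finset.sum_apply, Finset.smul_sum]
  refine Finset.sum_congr rfl fun j _ => ?_
  rw [christoffel_toRiem]
  simp only [PiLp.smul_apply, smul_eq_mul]
  ring

theorem pd_christoffel (i j k l : Fin n) (x : E n) :
    pd i (christoffel (toRiem H h) l j k) x =
      (fderiv ℝ (fun p => chris H p (bv j) (bv k)) x (bv i)) l := by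
  have e : christoffel (toRiem H h) l j k = fun p => chris H p (bv j) (bv k) l := by
    funext p; exact christoffel_toRiem h l j k p
  rw [e]
  have hd : DifferentiableAt ℝ (fun p => chris H p (bv j) (bv k)) x :=
    (h.contDiffAt_chris (mem_univ x) _ _).differentiableAt (by simp)
  have h1 : HasFDerivAt (fun p => chris H p (bv j) (bv k) l)
      ((EuclideanSpace.proj l : E n →L[ℝ] ℝ).comp
        (fderiv ℝ (fun p => chris H p (bv j) (bv k)) x)) x :=
    (EuclideanSpace.proj l : E n →L[ℝ] ℝ).hasFDerivAt.comp x hd.hasFDerivAt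
  rw [pd_eq h1.differentiableAt, h1.fderiv]
  rfl

theorem riem_toRiem (i j k m : Fin n) (x : E n) :
    riem (toRiem H h) i j k m x = H x (curv H x (bv i) (bv j) (bv k)) (bv m) := by
  rw [H_sum_left]
  unfold riem
  refine Finset.sum_congr rfl fun l _ => ?_
  rw [toRiem_apply, mul_comm]
  congr 1
  unfold curv
  rw [pd_christoffel, pd_christoffel]
  simp only [PiLp.add_apply, PiLp.sub_apply]
  rw [chris_comp h x (bv i) (chris H x (bv j) (bv k)), chris_comp h x (bv j) (chris H x (bv i) (bv k))]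
  have hs : ∀ (q : Fin n) (f : Fin n → Fin n → ℝ), ∑ a, ∑ b, f a b * (bv q : E n) a * (chris H x (bv j) (bv k)) b =
      ∑ b, f q b * (chris H x (bv j) (bv k)) b := by
    intro q f
    rw [Finset.sum_comm]
    refine Finset.sum_congr rfl fun b _ => ?_
    simp only [bv, EuclideanSpace.single_apply, mul_ite, mul_one, mul_zero, ite_mul, zero_mul]
    simp
  have hs' : ∀ (q : Fin n) (f : Fin n → Fin n → ℝ), ∑ a, ∑ b, f a b * (bv q : E n) a * (chris H x (bv i) (bv k)) b =
      ∑ b, f q b * (chris H x (bv i) (bv k)) b := by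
    intro q f
    rw [Finset.sum_comm]
    refine Finset.sum_congr rfl fun b _ => ?_
    simp only [bv, EuclideanSpace.single_apply, mul_ite, mul_one, mul_zero, ite_mul, zero_mul]
    simp
  rw [hs i (fun a b => christoffel (toRiem H h) l a b x), hs' j (fun a b => christoffel (toRiem H h) l a b x)]
  simp only [← christoffel_toRiem h]
  rw [add_sub_assoc, ← Finset.sum_sub_distrib]

theorem sum_riem (x u v w z : E n) :
    ∑ i, ∑ j, ∑ k, ∑ m, u i * v j * w k * z m * riem (toRiem H h) i j k m x =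
      H x (curv H x u v w) z := by
  have hm : ∀ a b c : E n, curv H x a b c = fderiv ℝ (chrisB H) x a b c - fderiv ℝ (chrisB H) x b a c
      + chrisB H x a (chrisB H x b c) - chrisB H x b (chrisB H x a c) :=
    fun a b c => h.curv_eq (mem_univ x) a b c
  have h1 : ∀ (a : E n) (b c : E n), curv H x a b c = ∑ i, a i • curv H x (bv i) b c := by
    intro a b c
    simp only [hm, smul_sub, smul_add, Finset.sum_sub_distrib, Finset.sum_add_distrib]
    conv_lhs => rw [← sum_bv a]
    simp only [map_sum, map_smul, FunLike.coe_sum, Finset.sum_apply, FunLike.coe_smul,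
      Pi.smul_apply]
  have h2 : ∀ (a : E n) (b c : E n), curv H x a b c = ∑ i, b i • curv H x a (bv i) c := by
    intro a b c
    simp only [hm, smul_sub, smul_add, Finset.sum_sub_distrib, Finset.sum_add_distrib]
    conv_lhs => rw [← sum_bv b]
    simp only [map_sum, map_smul, FunLike.coe_sum, Finset.sum_apply, FunLike.coe_smul,
      Pi.smul_apply]
  have h3 : ∀ (a : E n) (b c : E n), curv H x a b c = ∑ i, c i • curv H x a b (bv i) := by
    intro a b c
    simp only [hm, smul_sub, smul_add, Finset.sum_sub_distrib, Finset.sum_add_distrib]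
    conv_lhs => rw [← sum_bv c]
    simp only [map_sum, map_smul, FunLike.coe_sum, Finset.sum_apply, FunLike.coe_smul,
      Pi.smul_apply]
  rw [h1 u v w]
  simp only [map_sum, map_smul, FunLike.coe_sum, Finset.sum_apply, FunLike.coe_smul,
      Pi.smul_apply, smul_eq_mul]
  refine Finset.sum_congr rfl fun i _ => ?_
  rw [h2 _ v w]
  simp only [map_sum, map_smul, FunLike.coe_sum, Finset.sum_apply, FunLike.coe_smul,
      Pi.smul_apply, smul_eq_mul, Finset.mul_sum]
  refine Finset.sum_congr rfl fun j _ => ?_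
  rw [h3 _ _ w]
  simp only [map_sum, map_smul, FunLike.coe_sum, Finset.sum_apply, FunLike.coe_smul,
      Pi.smul_apply, smul_eq_mul, Finset.mul_sum]
  refine Finset.sum_congr rfl fun k _ => ?_
  conv_rhs => rw [← sum_bv z]
  simp only [map_sum, map_smul, smul_eq_mul, Finset.mul_sum]
  refine Finset.sum_congr rfl fun m _ => ?_
  rw [riem_toRiem]
  ring

open Matrix in
theorem dot_toRiem (x v w : E n) :
    (fun i => v i) ⬝ᵥ (toRiem H h).g x *ᵥ (fun i => w i) = H x v w := by
  rw [H_sum_left]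
  simp only [dotProduct, Matrix.mulVec, toRiem_apply]
  refine Finset.sum_congr rfl fun i _ => ?_
  congr 1
  conv_rhs => rw [← sum_bv w]
  simp only [map_sum, map_smul, smul_eq_mul]
  exact Finset.sum_congr rfl fun j _ => mul_comm _ _

theorem secLE_toRiem {K : ℝ} (hK : ∀ x u v, H x (curv H x u v v) u ≤
    K * (H x u u * H x v v - H x u v ^ 2)) : SecLE (toRiem H h) K := by
  intro x u v
  have h1 := hK x (WithLp.toLp 2 u) (WithLp.toLp 2 v)
  rw [← sum_riem h, ← dot_toRiem h, ← dot_toRiem h, ← dot_toRiem h] at h1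
  exact h1

/-- completeness from the geodesics of `H` -/
theorem complete_toRiem (hc : ∀ x v : E n, ∃ c : ℝ → E n, c 0 = x ∧ deriv c 0 = v ∧
    Differentiable ℝ c ∧ Differentiable ℝ (deriv c) ∧
    ∀ t, deriv (deriv c) t = - chris H (c t) (deriv c t) (deriv c t)) :
    GeodesicallyComplete (toRiem H h) := by
  intro x v
  obtain ⟨c, h0, h1, h2, h3, h4⟩ := hc x v
  refine ⟨c, deriv c, h0, h1, fun t k => ⟨?_, ?_⟩⟩
  · exact ((EuclideanSpace.proj k : E n →L[ℝ] ℝ).hasFDerivAt.comp_hasDerivAt t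
      (h2 t).hasDerivAt)
  · have h5 := ((EuclideanSpace.proj k : E n →L[ℝ] ℝ).hasFDerivAt.comp_hasDerivAt t
      (h3 t).hasDerivAt)
    rw [h4 t] at h5
    have e : (EuclideanSpace.proj k : E n →L[ℝ] ℝ) (- chris H (c t) (deriv c t) (deriv c t)) =
        -∑ i, ∑ j, christoffel (toRiem H h) k i j (c t) * deriv c t i * deriv c t j := by
      rw [← chris_comp h]
      rfl
    rw [e] at h5
    exact h5

end Idx

end Vale.Agent.P219.H381
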