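import Vale.Agent.P219.H381.ExpC

/-!
# P219: the Cartan-Hadamard theorem: the exponential map is a diffeomorphism
-/

open scoped Manifold ContDiff Topology
open Set Filter

set_option maxSynthPendingDepth 3
set_option linter.all false

noncomputable section

namespace Vale.Agent.P219.H381

open Vale.Agent.P219.RG
open Vale.Agent.P255 (RMetric coefIn innerAt Gam Riem CovDer curveIn fieldIn IsGeo)

section Top

variable {X Y : Type} [TopologicalSpace X] [TopologicalSpace Y]

theorem exists_homeo [Nonempty X] [PreconnectedSpace X] [SimplyConnectedSpace Y]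
    [LocallyPathConnectedSpace Y] {p : X → Y} (cov : IsCoveringMap p) :
    ∃ h : X ≃ₜ Y, ⇑h = p := by
  obtain ⟨x₀⟩ := ‹Nonempty X›
  obtain ⟨s, ⟨h0, h1⟩, -⟩ := cov.existsUnique_continuousMap_lifts (ContinuousMap.id Y) (p x₀) x₀ rfl
  have hs : ∀ y, p (s y) = y := fun y => congrFun h1 y
  have h2 : (fun x => s (p x)) = id := by
    apply cov.eq_of_comp_eq (s.continuous.comp cov.continuous) continuous_id ?_ x₀ h0
    funext x
    exact hs (p x)
  exact ⟨⟨⟨p, s, fun x => congrFun h2 x, hs⟩, cov.continuous, s.continuous⟩, rfl⟩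

end Top

variable {E : Type} [NormedAddCommGroup E] [NormedSpace ℝ E] [FiniteDimensional ℝ E]
variable {M : Type} [TopologicalSpace M] [ChartedSpace E M] [IsManifold 𝓘(ℝ, E) ∞ M]

/-- a homeomorphism which is smooth and immersive in the charts is a diffeomorphism -/
theorem exists_diffeo (h : E ≃ₜ M)
    (hs : ∀ v a, h v ∈ (chartAt E a).source → ContDiffAt ℝ ∞ (fun w => chartAt E a (h w)) v)
    (hi : ∀ v a, h v ∈ (chartAt E a).source → ∀ w,
      fderiv ℝ (fun x => chartAt E a (h x)) v w = 0 → w = 0) :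
    ∃ Ψ : E ≃ₘ^∞⟮𝓘(ℝ, E), 𝓘(ℝ, E)⟯ M, ⇑Ψ = h := by
  have h1 : ContMDiff 𝓘(ℝ, E) 𝓘(ℝ, E) ∞ h := by
    intro v
    rw [contMDiffAt_iff_target]
    exact ⟨h.continuous.continuousAt, (hs v (h v) (mem_chart_source E _)).contMDiffAt⟩
  have h2 : ContMDiff 𝓘(ℝ, E) 𝓘(ℝ, E) ∞ h.symm := by
    intro p
    set v := h.symm p with hv
    have hp : h v = p := h.apply_symm_apply p
    set L : OpenPartialHomeomorph E E := h.toOpenPartialHomeomorph.trans (chartAt E p) with hL
    have hmem : h v ∈ (chartAt E p).source := by rw [hp]; exact mem_chart_source E p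
    have hvs : v ∈ L.source := by simp [hL, hmem]
    have hcd : ContDiffAt ℝ ∞ (fun w => chartAt E p (h w)) v := hs v p hmem
    have hinj : Function.Injective (fderiv ℝ (fun w => chartAt E p (h w)) v : E →ₗ[ℝ] E) := by
      rw [injective_iff_map_eq_zero]
      exact fun w hw => hi v p hmem w hw
    let D : E ≃L[ℝ] E := (LinearEquiv.ofInjectiveEndo _ hinj).toContinuousLinearEquiv
    have hD : (D : E →L[ℝ] E) = fderiv ℝ (fun w => chartAt E p (h w)) v := by
      ext w; rfl
    have h3 : ContDiffAt ℝ ∞ L.symm (L v) := by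
      apply L.contDiffAt_symm (f₀' := D) (L.map_source hvs)
      · rw [L.left_inv hvs, hD]
        exact (hcd.differentiableAt (by simp)).hasFDerivAt
      · rw [L.left_inv hvs]
        exact hcd
    rw [contMDiffAt_iff_source]
    have h4 : L v = chartAt E p p := by
      change chartAt E p (h v) = _
      rw [hp]
    rw [h4] at h3
    exact (h3.contMDiffAt).contMDiffWithinAt
  exact ⟨{ toEquiv := h.toEquiv, contMDiff_toFun := h1, contMDiff_invFun := h2 }, rfl⟩

/-- the Cartan-Hadamard theorem -/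
theorem cartanHadamard [T2Space M] [SimplyConnectedSpace M] {g : Metric E M} (hc : Cpl g)
    (hn : Npc g) (m : M) : ∃ Ψ : E ≃ₘ^∞⟮𝓘(ℝ, E), 𝓘(ℝ, E)⟯ M, ⇑Ψ = expC hc m := by
  have he := isExp_expgC hc
  have hI := he.injAt (noConj_of_npc hn) m
  have hcov := he.isCoveringMap_of (he.gaussAt m) hI
  have : LocallyPathConnectedSpace M := ChartedSpace.locallyPathConnectedSpace E M
  obtain ⟨h, hh⟩ := exists_homeo hcov
  obtain ⟨Ψ, hΨ⟩ := exists_diffeo h (fun v a ha => by
    rw [hh] at ha ⊢
    exact contDiffAt_expgC hc m v a ha) (fun v a ha w hw => by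
    rw [hh] at ha hw
    exact hI v w a ha hw)
  exact ⟨Ψ, hΨ.trans hh⟩

end Vale.Agent.P219.H381
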