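import Vale.Agent.P219.H381.R2

/-!
# P219: the exponential map of a complete Riemannian manifold
The text follows the proof of P255 for closed manifolds; compactness is replaced by geodesic
completeness, and the exponential map is shown to be of class `C^∞`.
-/

open scoped Manifold ContDiff Topology
open Set Filter

set_option maxSynthPendingDepth 3
set_option linter.all false

noncomputable section

namespace Vale.Agent.P219.H381

open Vale.Agent.P219.RG
open Vale.Agent.P255 (RMetric coefIn innerAt Gam Riem CovDer curveIn fieldIn IsGeo)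

section Flow

variable {F : Type} [NormedAddCommGroup F] [NormedSpace ℝ F] [FiniteDimensional ℝ F]

/-- local flow, smooth in all variables, with the variational equation. -/
theorem exists_flowS (f : F → F) (U : Set F) (hU : IsOpen U) (hf : ContDiffOn ℝ ∞ f U)
    (x₀ : F) (hx₀ : x₀ ∈ U) :
    ∃ ε > 0, ∃ W : Set F, IsOpen W ∧ x₀ ∈ W ∧ ∃ Φ : ℝ → F → F,
      (∀ x ∈ W, Φ 0 x = x) ∧
      (∀ x ∈ W, ∀ t ∈ Ioo (-ε) ε, Φ t x ∈ U ∧ HasDerivAt (fun s => Φ s x) (f (Φ t x)) t) ∧
      ContDiffOn ℝ ∞ (fun p : ℝ × F => Φ p.1 p.2) (Ioo (-ε) ε ×ˢ W) ∧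
      (∀ x ∈ W, ∀ w, ∀ t ∈ Ioo (-ε) ε,
        HasDerivAt (fun s => fderiv ℝ (Φ s) x w)
          (fderiv ℝ f (Φ t x) (fderiv ℝ (Φ t) x w)) t) := by
  obtain ⟨ε, hε, W, hW, hx₀W, Φ, h0, h1, h2⟩ := exists_flow_smooth f U hU hf x₀ hx₀
  exact ⟨ε, hε, W, hW, hx₀W, Φ, h0, h1, h2, fun x hx w t ht =>
    variational hU hf hW h1 h2 hx w ht⟩

end Flow

variable {E : Type} [NormedAddCommGroup E] [NormedSpace ℝ E]
variable {M : Type} [TopologicalSpace M] [ChartedSpace E M]

/-- geodesic completeness -/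
def Cpl (g : Metric E M) : Prop :=
  ∀ (m : M) (v : E), ∃ γ : ℝ → M, IsGeodesic g γ ∧ γ 0 = m ∧ deriv (cc (E := E) γ m) 0 = v

variable [FiniteDimensional ℝ E] [IsManifold 𝓘(ℝ, E) ∞ M]

variable [T2Space M]

/-- the geodesic with given initial data -/
def geoC {g : Metric E M} (hc : Cpl g) (m : M) (v : E) : ℝ → M := (hc m v).choose

theorem isGeodesic_geoC {g : Metric E M} (hc : Cpl g) (m : M) (v : E) : IsGeodesic g (geoC hc m v) :=
  (hc m v).choose_spec.1

theorem geo_zeroC {g : Metric E M} (hc : Cpl g) (m : M) (v : E) : geoC hc m v 0 = m :=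
  (hc m v).choose_spec.2.1

theorem deriv_geoC {g : Metric E M} (hc : Cpl g) (m : M) (v : E) : deriv (cc (geoC hc m v) m) 0 = v :=
  (hc m v).choose_spec.2.2

theorem geo_smulC {g : Metric E M} (hc : Cpl g) (m : M) (v : E) (c t : ℝ) :
    geoC hc m (c • v) t = geoC hc m v (c * t) := by
  have h : geoC hc m (c • v) = fun t => geoC hc m v (c * t) := by
    apply IsGeodesic.ext (isGeodesic_geoC hc m (c • v)) ((isGeodesic_geoC hc m v).comp_mul c)
      (t₀ := 0) (a := m)
    · simp [geo_zeroC]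
    · rw [geo_zeroC]; exact mem_chart_source E m
    · rw [deriv_geoC]
      have : deriv (cc (E := E) (fun t => geoC hc m v (c * t)) m) 0
          = c • deriv (cc (E := E) (geoC hc m v) m) (c * 0) :=
        deriv_comp_mul_left c (cc (E := E) (geoC hc m v) m) 0
      rw [this, mul_zero, deriv_geoC]
  rw [h]

/-- the state of the geodesic with initial vector `p.2` at time `p.1`, in the chart at `a` -/
def stC {g : Metric E M} (hc : Cpl g) (m a : M) (p : ℝ × E) : E × E :=
  (cc (geoC hc m p.2) a p.1, deriv (cc (geoC hc m p.2) a) p.1)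

/-- regularity at time `t` for the initial vector `v` -/
def GoodC {g : Metric E M} (hc : Cpl g) (m : M) (v : E) (t : ℝ) : Prop :=
  ContinuousAt (fun p : ℝ × E => geoC hc m p.2 p.1) (t, v) ∧
    ∀ a, geoC hc m v t ∈ (chartAt E a).source → ContDiffAt ℝ ∞ (stC hc m a) (t, v)

theorem GoodC.of_one {g : Metric E M} {hc : Cpl g} {m : M} {v : E} {t : ℝ} {a : M}
    (h1 : ContinuousAt (fun p : ℝ × E => geoC hc m p.2 p.1) (t, v))
    (ha : geoC hc m v t ∈ (chartAt E a).source) (h2 : ContDiffAt ℝ ∞ (stC hc m a) (t, v)) :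
    GoodC hc m v t := by
  refine ⟨h1, fun b hb => ?_⟩
  have e1 : ∀ᶠ p in 𝓝 (t, v), geoC hc m p.2 p.1 ∈ (chartAt E a).source :=
    h1.eventually ((chartAt E a).open_source.mem_nhds ha)
  have e2 : ∀ᶠ p in 𝓝 (t, v), geoC hc m p.2 p.1 ∈ (chartAt E b).source :=
    h1.eventually ((chartAt E b).open_source.mem_nhds hb)
  have e3 : stC hc m b =ᶠ[𝓝 (t, v)] fun p => tst a b (stC hc m a p) := by
    filter_upwards [e1, e2] with p hpa hpb
    have hg := isGeodesic_geoC hc m p.2
    unfold stC tst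
    simp only [Prod.mk.injEq]
    exact ⟨cc_trans hpa, deriv_cc_trans (hg.continuousAt _) hpa hpb
      (hg.eqn a p.1 (mem_univ _) hpa).1⟩
  refine ContDiffAt.congr_of_eventuallyEq ?_ e3
  have h3 : ContDiffAt ℝ ∞ (tst a b) (stC hc m a (t, v)) := by
    apply contDiffAt_tst a b
    · exact cc_mem_target ha
    · change (chartAt E a).symm (cc (geoC hc m v) a t) ∈ _
      rw [symmCc' ha]; exact hb
  exact h3.comp (t, v) h2

/-- propagation of regularity by the local flow -/
theorem GoodC.propagate {g : Metric E M} {hc : Cpl g} {m : M} {v : E} {a : M}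
    {ε : ℝ} (hε : 0 < ε) {W : Set (E × E)} (hWo : IsOpen W) {Φ : ℝ → E × E → E × E}
    (hΦ0 : ∀ x ∈ W, Φ 0 x = x)
    (hΦ : ∀ x ∈ W, ∀ t ∈ Ioo (-ε) ε, Φ t x ∈ (chartAt E a).target ×ˢ (univ : Set E) ∧
      HasDerivAt (fun s => Φ s x) (geoField (g.coef a) (Φ t x)) t)
    (hΦ1 : ContDiffOn ℝ ∞ (fun p : ℝ × (E × E) => Φ p.1 p.2) (Ioo (-ε) ε ×ˢ W))
    {t₀ t : ℝ} (ht : |t - t₀| < ε)
    (h1 : ∀ᶠ w in 𝓝 v, geoC hc m w t₀ ∈ (chartAt E a).source)
    (h2 : ContDiffAt ℝ ∞ (fun w => stC hc m a (t₀, w)) v) (hW : stC hc m a (t₀, v) ∈ W) :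
    GoodC hc m v t ∧ geoC hc m v t ∈ (chartAt E a).source := by
  have h3 : ∀ᶠ w in 𝓝 v, stC hc m a (t₀, w) ∈ W :=
    h2.continuousAt.eventually (hWo.mem_nhds hW)
  have h4 : ∀ᶠ p : ℝ × E in 𝓝 (t, v), geoC hc m p.2 t₀ ∈ (chartAt E a).source ∧
      stC hc m a (t₀, p.2) ∈ W := by
    have : Tendsto (fun p : ℝ × E => p.2) (𝓝 (t, v)) (𝓝 v) := continuous_snd.tendsto _
    exact this.eventually (h1.and h3)
  have h5 : ∀ᶠ p : ℝ × E in 𝓝 (t, v), p.1 - t₀ ∈ Ioo (-ε) ε := by
    have : ContinuousAt (fun p : ℝ × E => p.1 - t₀) (t, v) := by fun_prop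
    exact this.eventually (isOpen_Ioo.mem_nhds (abs_lt.1 ht))
  have h6 : ∀ᶠ p : ℝ × E in 𝓝 (t, v), geoC hc m p.2 p.1 ∈ (chartAt E a).source ∧
      stC hc m a p = Φ (p.1 - t₀) (stC hc m a (t₀, p.2)) := by
    filter_upwards [h4, h5] with p hp4 hp5
    have := (isGeodesic_geoC hc m p.2).flow hε hΦ0 hΦ hp4.1 hp4.2 hp5
    rw [add_sub_cancel] at this
    exact this
  have h7 : stC hc m a =ᶠ[𝓝 (t, v)] fun p => Φ (p.1 - t₀) (stC hc m a (t₀, p.2)) := by
    filter_upwards [h6] with p hp
    exact hp.2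
  have h8 : ContDiffAt ℝ ∞ (stC hc m a) (t, v) := by
    refine ContDiffAt.congr_of_eventuallyEq ?_ h7
    have h9 : ContDiffAt ℝ ∞ (fun p : ℝ × (E × E) => Φ p.1 p.2) (t - t₀, stC hc m a (t₀, v)) :=
      hΦ1.contDiffAt ((isOpen_Ioo.prod hWo).mem_nhds ⟨abs_lt.1 ht, hW⟩)
    have h10 : ContDiffAt ℝ ∞ (fun p : ℝ × E => (p.1 - t₀, stC hc m a (t₀, p.2))) (t, v) := by
      apply ContDiffAt.prodMk
      · exact contDiffAt_fst.sub contDiffAt_const
      · exact ContDiffAt.comp (t, v) (g := fun w => stC hc m a (t₀, w)) h2 contDiffAt_snd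
    exact ContDiffAt.comp (t, v) h9 h10
  have h11 : geoC hc m v t ∈ (chartAt E a).source := h6.self_of_nhds.1
  refine ⟨GoodC.of_one ?_ h11 h8, h11⟩
  have h12 : (fun p : ℝ × E => geoC hc m p.2 p.1) =ᶠ[𝓝 (t, v)]
      fun p => (chartAt E a).symm (stC hc m a p).1 := by
    filter_upwards [h6] with p hp
    exact (symmCc' hp.1).symm
  refine ContinuousAt.congr ?_ h12.symm
  have h13 : ContinuousAt (chartAt E a).symm (stC hc m a (t, v)).1 :=
    (chartAt E a).symm.continuousAt (cc_mem_target h11)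
  exact ContinuousAt.comp (f := fun p => (stC hc m a p).1) h13 h8.continuousAt.fst

/-- flow box around the state at time `t₁` -/
theorem exists_boxC {g : Metric E M} (hc : Cpl g) (m : M) (v : E) (a : M) (t₁ : ℝ)
    (ha : geoC hc m v t₁ ∈ (chartAt E a).source) :
    ∃ ε > 0, ∃ W : Set (E × E), IsOpen W ∧ stC hc m a (t₁, v) ∈ W ∧ ∃ Φ : ℝ → E × E → E × E,
      (∀ x ∈ W, Φ 0 x = x) ∧
      (∀ x ∈ W, ∀ t ∈ Ioo (-ε) ε, Φ t x ∈ (chartAt E a).target ×ˢ (univ : Set E) ∧
        HasDerivAt (fun s => Φ s x) (geoField (g.coef a) (Φ t x)) t) ∧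
      ContDiffOn ℝ ∞ (fun p : ℝ × (E × E) => Φ p.1 p.2) (Ioo (-ε) ε ×ˢ W) ∧
      (∀ x ∈ W, ∀ w, ∀ t ∈ Ioo (-ε) ε,
        HasDerivAt (fun s => fderiv ℝ (Φ s) x w)
          (fderiv ℝ (geoField (g.coef a)) (Φ t x) (fderiv ℝ (Φ t) x w)) t) :=
  exists_flowS (geoField (g.coef a)) ((chartAt E a).target ×ˢ (univ : Set E))
    ((chartAt E a).open_target.prod isOpen_univ) (g.isMetricOn a).contDiffOn_geoField
    (stC hc m a (t₁, v)) ⟨cc_mem_target ha, mem_univ _⟩

theorem continuousAt_stC {g : Metric E M} (hc : Cpl g) (m : M) (v : E) (a : M) (t₁ : ℝ)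
    (ha : geoC hc m v t₁ ∈ (chartAt E a).source) :
    ContinuousAt (fun t => stC hc m a (t, v)) t₁ := by
  obtain ⟨h1, h2, -⟩ := (isGeodesic_geoC hc m v).eqn a t₁ (mem_univ _) ha
  exact h1.continuousAt.prodMk h2.continuousAt

theorem GoodC.local {g : Metric E M} (hc : Cpl g) (m : M) (v : E) (t₁ : ℝ) :
    ∃ δ > 0, ∀ t₀ t, |t₀ - t₁| < δ → |t - t₁| < δ → GoodC hc m v t₀ → GoodC hc m v t := by
  set a := geoC hc m v t₁ with hadef
  have ha : geoC hc m v t₁ ∈ (chartAt E a).source := mem_chart_source E _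
  obtain ⟨ε, hε, W, hWo, hxW, Φ, hΦ0, hΦ, hΦ1, -⟩ := exists_boxC hc m v a t₁ ha
  have h1 : ∀ᶠ t in 𝓝 t₁, stC hc m a (t, v) ∈ W :=
    (continuousAt_stC hc m v a t₁ ha).eventually (hWo.mem_nhds hxW)
  have h2 : ∀ᶠ t in 𝓝 t₁, geoC hc m v t ∈ (chartAt E a).source :=
    evSource' ((isGeodesic_geoC hc m v).continuousAt t₁) ha
  obtain ⟨δ, hδ, hball⟩ := Metric.eventually_nhds_iff.1 (h1.and h2)
  refine ⟨min δ (ε / 2), by (clear * - hδ hε; positivity), fun t₀ t ht₀ ht hgood => ?_⟩
  have h3 := hball (y := t₀) (by rw [Real.dist_eq]; exact lt_of_lt_of_le ht₀ (min_le_left _ _))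
  have ht' : |t - t₀| < ε := by
    have e1 := lt_of_lt_of_le ht₀ (min_le_right _ _)
    have e2 := lt_of_lt_of_le ht (min_le_right _ _)
    have e3 : |t - t₀| ≤ |t - t₁| + |t₀ - t₁| := by
      have := abs_sub_le t t₁ t₀
      rw [abs_sub_comm t₁ t₀] at this
      exact this
    linarith only [e1, e2, e3]
  have h4 : ContinuousAt (fun w : E => ((t₀, w) : ℝ × E)) v := by fun_prop
  have h5 : ∀ᶠ w in 𝓝 v, geoC hc m w t₀ ∈ (chartAt E a).source := by
    have h6 : ContinuousAt (fun w : E => geoC hc m w t₀) v :=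
      ContinuousAt.comp (g := fun p : ℝ × E => geoC hc m p.2 p.1) hgood.1 h4
    exact h6.eventually ((chartAt E a).open_source.mem_nhds h3.2)
  have h7 : ContDiffAt ℝ ∞ (fun w => stC hc m a (t₀, w)) v :=
    ContDiffAt.comp (g := stC hc m a) v (hgood.2 a h3.2) (contDiffAt_const.prodMk contDiffAt_id)
  exact (GoodC.propagate hε hWo hΦ0 hΦ hΦ1 ht' h5 h7 h3.1).1

theorem st_zeroC {g : Metric E M} (hc : Cpl g) (m : M) (w : E) : stC hc m m (0, w) = (chartAt E m m, w) := by
  unfold stC cc
  simp only [geo_zeroC]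
  exact congrArg _ (deriv_geoC hc m w)

theorem GoodC.zero {g : Metric E M} (hc : Cpl g) (m : M) (v : E) : GoodC hc m v 0 := by
  have ha : geoC hc m v 0 ∈ (chartAt E m).source := by
    rw [geo_zeroC]; exact mem_chart_source E m
  obtain ⟨ε, hε, W, hWo, hxW, Φ, hΦ0, hΦ, hΦ1, -⟩ := exists_boxC hc m v m 0 ha
  refine (GoodC.propagate hε hWo hΦ0 hΦ hΦ1 (t₀ := 0) (t := 0) (by simpa only [sub_self, abs_zero, gt_iff_lt] using hε) ?_ ?_ hxW).1
  · filter_upwards with w
    rw [geo_zeroC]; exact mem_chart_source E m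
  · have : (fun w => stC hc m m (0, w)) = fun w => (chartAt E m m, w) := by
      funext w; exact st_zeroC hc m w
    rw [this]
    exact contDiffAt_const.prodMk contDiffAt_id

theorem GoodC.all {g : Metric E M} (hc : Cpl g) (m : M) (v : E) (t : ℝ) : GoodC hc m v t := by
  have hopen : IsOpen {t | GoodC hc m v t} := by
    rw [Metric.isOpen_iff]
    intro t₁ ht₁
    obtain ⟨δ, hδ, h⟩ := GoodC.local hc m v t₁
    refine ⟨δ, hδ, fun t ht => ?_⟩
    rw [Metric.mem_ball, Real.dist_eq] at ht
    exact h t₁ t (by simpa only [sub_self, abs_zero, gt_iff_lt] using hδ) ht ht₁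
  have hclosed : IsClosed {t | GoodC hc m v t} := by
    rw [← isOpen_compl_iff, Metric.isOpen_iff]
    intro t₁ ht₁
    obtain ⟨δ, hδ, h⟩ := GoodC.local hc m v t₁
    refine ⟨δ, hδ, fun t ht htg => ht₁ ?_⟩
    rw [Metric.mem_ball, Real.dist_eq] at ht
    exact h t t₁ ht (by simpa only [sub_self, abs_zero, gt_iff_lt] using hδ) htg
  have : {t | GoodC hc m v t} = univ :=
    IsClopen.eq_univ ⟨hclosed, hopen⟩ ⟨0, GoodC.zero hc m v⟩
  have h : t ∈ {t | GoodC hc m v t} := by rw [this]; exact mem_univ t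
  exact h

/-- the exponential map -/
def expC {g : Metric E M} (hc : Cpl g) (m : M) (v : E) : M := geoC hc m v 1

theorem expg_smulC {g : Metric E M} (hc : Cpl g) (m : M) (v : E) (t : ℝ) :
    expC hc m (t • v) = geoC hc m v t := by
  unfold expC
  rw [geo_smulC, mul_one]

theorem expg_smul_funC {g : Metric E M} (hc : Cpl g) (m : M) (v : E) :
    (fun t : ℝ => expC hc m (t • v)) = geoC hc m v := funext (expg_smulC hc m v)

theorem continuous_expgC {g : Metric E M} (hc : Cpl g) (m : M) : Continuous (expC hc m) := by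
  rw [continuous_iff_continuousAt]
  intro v
  have h4 : ContinuousAt (fun w : E => (((1 : ℝ), w) : ℝ × E)) v := by fun_prop
  exact ContinuousAt.comp (g := fun p : ℝ × E => geoC hc m p.2 p.1) (GoodC.all hc m v 1).1 h4

theorem contDiffAt_expgC {g : Metric E M} (hc : Cpl g) (m : M) (v : E) (a : M)
    (ha : expC hc m v ∈ (chartAt E a).source) :
    ContDiffAt ℝ ∞ (fun w => chartAt E a (expC hc m w)) v := by
  have h := (GoodC.all hc m v 1).2 a ha
  have h7 : ContDiffAt ℝ ∞ (fun w => stC hc m a ((1 : ℝ), w)) v :=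
    ContDiffAt.comp (g := stC hc m a) v h (contDiffAt_const.prodMk contDiffAt_id)
  exact h7.fst

/-- the variation field with its derivative -/
def varC {g : Metric E M} (hc : Cpl g) (m : M) (v w : E) (a : M) (t : ℝ) : E × E :=
  fderiv ℝ (fun w' => stC hc m a (t, w')) v w

theorem contDiffAt_stC {g : Metric E M} (hc : Cpl g) (m : M) (v : E) (a : M) (t : ℝ)
    (ha : geoC hc m v t ∈ (chartAt E a).source) :
    ContDiffAt ℝ ∞ (fun w' => stC hc m a (t, w')) v :=
  ContDiffAt.comp (g := stC hc m a) v ((GoodC.all hc m v t).2 a ha)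
    (contDiffAt_const.prodMk contDiffAt_id)

/-- the variation field solves the linearised geodesic equation -/
theorem hasDerivAt_varC {g : Metric E M} (hc : Cpl g) (m : M) (v w : E) (a : M) (t : ℝ)
    (ha : geoC hc m v t ∈ (chartAt E a).source) :
    HasDerivAt (varC hc m v w a)
      (fderiv ℝ (geoField (g.coef a)) (stC hc m a (t, v)) (varC hc m v w a t)) t := by
  obtain ⟨ε, hε, W, hWo, hxW, Φ, hΦ0, hΦ, hΦ1, hΦ2⟩ := exists_boxC hc m v a t ha
  have hd := contDiffAt_stC hc m v a t ha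
  have h1 : ∀ᶠ w' in 𝓝 v, geoC hc m w' t ∈ (chartAt E a).source := by
    have h4 : ContinuousAt (fun w : E => ((t, w) : ℝ × E)) v := by fun_prop
    have h6 : ContinuousAt (fun w : E => geoC hc m w t) v :=
      ContinuousAt.comp (g := fun p : ℝ × E => geoC hc m p.2 p.1) (GoodC.all hc m v t).1 h4
    exact h6.eventually ((chartAt E a).open_source.mem_nhds ha)
  have h2 : ∀ᶠ w' in 𝓝 v, stC hc m a (t, w') ∈ W :=
    hd.continuousAt.eventually (hWo.mem_nhds hxW)
  set x := stC hc m a (t, v) with hx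
  have h3 : ∀ s, s - t ∈ Ioo (-ε) ε →
      varC hc m v w a s = fderiv ℝ (Φ (s - t)) x (varC hc m v w a t) := by
    intro s hs
    have e1 : (fun w' => stC hc m a (s, w')) =ᶠ[𝓝 v] fun w' => Φ (s - t) (stC hc m a (t, w')) := by
      filter_upwards [h1, h2] with w' hw1 hw2
      have := ((isGeodesic_geoC hc m w').flow hε hΦ0 hΦ hw1 hw2 hs).2
      rw [add_sub_cancel] at this
      exact this
    unfold varC
    rw [e1.fderiv_eq]
    have e2 : DifferentiableAt ℝ (Φ (s - t)) x := by
      have e3 : ContDiffAt ℝ ∞ (fun p : ℝ × (E × E) => Φ p.1 p.2) (s - t, x) :=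
        hΦ1.contDiffAt ((isOpen_Ioo.prod hWo).mem_nhds ⟨hs, hxW⟩)
      have e4 : ContDiffAt ℝ ∞ (fun y => Φ (s - t) y) x :=
        ContDiffAt.comp (g := fun p : ℝ × (E × E) => Φ p.1 p.2) x e3
          (contDiffAt_const.prodMk contDiffAt_id)
      exact e4.differentiableAt (by simp)
    have e5 := (HasFDerivAt.comp v (hg := e2.hasFDerivAt)
      (hf := (hd.differentiableAt (by simp)).hasFDerivAt)).fderiv
    have e6 : fderiv ℝ (fun w' => Φ (s - t) (stC hc m a (t, w'))) v
        = (fderiv ℝ (Φ (s - t)) x).comp (fderiv ℝ (fun w' => stC hc m a (t, w')) v) := e5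
    rw [e6]
    rfl
  have h4 : varC hc m v w a =ᶠ[𝓝 t] fun s => fderiv ℝ (Φ (s - t)) x (varC hc m v w a t) := by
    have : ∀ᶠ s in 𝓝 t, s - t ∈ Ioo (-ε) ε := by
      have hc : ContinuousAt (fun s : ℝ => s - t) t := by fun_prop
      exact hc.eventually (isOpen_Ioo.mem_nhds (by simpa only [sub_self, mem_Ioo, Left.neg_neg_iff, and_self, gt_iff_lt] using hε))
    filter_upwards [this] with s hs
    exact h3 s hs
  refine HasDerivAt.congr_of_eventuallyEq ?_ h4
  have h5 := hΦ2 x hxW (varC hc m v w a t) 0 (by simpa only [mem_Ioo, Left.neg_neg_iff, and_self, gt_iff_lt] using hε)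
  have h6 : fderiv ℝ (Φ 0) x = ContinuousLinearMap.id ℝ (E × E) := by
    have : Φ 0 =ᶠ[𝓝 x] id := by
      filter_upwards [hWo.mem_nhds hxW] with y hy
      exact hΦ0 y hy
    rw [this.fderiv_eq]
    exact fderiv_id
  rw [h6, hΦ0 x hxW] at h5
  have h8 : HasDerivAt (fun s => fderiv ℝ (Φ s) x (varC hc m v w a t))
      (fderiv ℝ (geoField (g.coef a)) x (varC hc m v w a t)) (t - t) := by
    rw [sub_self]; exact h5
  exact HasDerivAt.comp_sub_const t t h8

/-- the variation field through the exponential map -/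
theorem fderiv_expgC {g : Metric E M} (hc : Cpl g) (m : M) (v w : E) (a : M) (t : ℝ)
    (ha : geoC hc m v t ∈ (chartAt E a).source) :
    fderiv ℝ (fun x => chartAt E a (expC hc m x)) (t • v) (t • w) = (varC hc m v w a t).1 := by
  have h1 : expC hc m (t • v) ∈ (chartAt E a).source := by rw [expg_smulC]; exact ha
  have h2 := (contDiffAt_expgC hc m (t • v) a h1).differentiableAt (by simp)
  have h3 : HasFDerivAt (fun w' : E => t • w') (t • ContinuousLinearMap.id ℝ E) v :=
    (hasFDerivAt_id v).const_smul t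
  have h4 := HasFDerivAt.comp v (hg := h2.hasFDerivAt) (hf := h3)
  have h5 : (fun w' => (stC hc m a (t, w')).1)
      = (fun x => chartAt E a (expC hc m x)) ∘ fun w' : E => t • w' := by
    funext w'
    change chartAt E a (geoC hc m w' t) = chartAt E a (expC hc m (t • w'))
    rw [expg_smulC]
  have h6 : HasFDerivAt (fun w' => (stC hc m a (t, w')).1)
      ((ContinuousLinearMap.fst ℝ E E).comp (fderiv ℝ (fun w' => stC hc m a (t, w')) v)) v :=
    (((contDiffAt_stC hc m v a t ha).differentiableAt (by simp)).hasFDerivAt).fst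
  rw [h5] at h6
  have h7 := h4.unique h6
  have h8 := congrArg (fun L : E →L[ℝ] E => L w) h7
  simpa only [map_smul, varC, ContinuousLinearMap.comp_smulₛₗ, Real.ringHom_apply, ContinuousLinearMap.comp_id,     smul_apply, ContinuousLinearMap.comp_apply, ContinuousLinearMap.coe_fst'] using h8

/-- derivative of the exponential map in two charts -/
theorem fderiv_expg_transC {g : Metric E M} (hc : Cpl g) (m : M) (v : E) (a b : M)
    (ha : expC hc m v ∈ (chartAt E a).source) (hb : expC hc m v ∈ (chartAt E b).source) (w : E) :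
    fderiv ℝ (fun x => chartAt E b (expC hc m x)) v w
      = fderiv ℝ (trans E a b) (chartAt E a (expC hc m v))
          (fderiv ℝ (fun x => chartAt E a (expC hc m x)) v w) := by
  have h1 : ∀ᶠ x in 𝓝 v, expC hc m x ∈ (chartAt E a).source :=
    (continuous_expgC hc m).continuousAt.eventually ((chartAt E a).open_source.mem_nhds ha)
  have h2 : (fun x => chartAt E b (expC hc m x)) =ᶠ[𝓝 v]
      (trans E a b) ∘ (fun x => chartAt E a (expC hc m x)) := by
    filter_upwards [h1] with x hx
    simp only [Function.comp_apply, RG.trans]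
    rw [(chartAt E a).left_inv hx]
  rw [h2.fderiv_eq]
  have h3 := contDiffAt_trans' a b ((chartAt E a).map_source ha)
    (by rw [(chartAt E a).left_inv ha]; exact hb)
  rw [fderiv_comp v (h3.differentiableAt (by simp))
    ((contDiffAt_expgC hc m v a ha).differentiableAt (by simp))]
  rfl

theorem isJacobi_expgC {g : Metric E M} (hc : Cpl g) (m : M) (v w : E) :
    IsJacobi g (fun t => expC hc m (t • v))
      (fun a t => fderiv ℝ (fun x => chartAt E a (expC hc m x)) (t • v) (t • w)) := by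
  refine ⟨?_, ?_⟩
  · intro a b t ha hb
    exact fderiv_expg_transC hc m (t • v) a b ha hb (t • w)
  · intro a t ha
    rw [expg_smul_funC]
    have ha' : geoC hc m v t ∈ (chartAt E a).source := by rw [← expg_smulC]; exact ha
    have hgeo := isGeodesic_geoC hc m v
    have hsrc : ∀ᶠ s in 𝓝 t, geoC hc m v s ∈ (chartAt E a).source :=
      evSource' (hgeo.continuousAt t) ha'
    set J : ℝ → E := fun t => fderiv ℝ (fun x => chartAt E a (expC hc m x)) (t • v) (t • w)
      with hJ
    set c : ℝ → E := cc (geoC hc m v) a with hcdef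
    have hm := g.isMetricOn a
    -- values of the variation field
    have hv : ∀ s, geoC hc m v s ∈ (chartAt E a).source →
        HasDerivAt (fun s => (varC hc m v w a s).1) (varC hc m v w a s).2 s ∧
        HasDerivAt (fun s => (varC hc m v w a s).2)
          (-(fderiv ℝ (fun p => chris (g.coef a) p (deriv c s) (deriv c s)) (c s)
              (varC hc m v w a s).1
            + (2 : ℝ) • chris (g.coef a) (c s) (deriv c s) (varC hc m v w a s).2)) s := by
      intro s hs
      have h1 := hasDerivAt_varC hc m v w a s hs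
      have h2 : fderiv ℝ (geoField (g.coef a)) (stC hc m a (s, v)) (varC hc m v w a s)
          = ((varC hc m v w a s).2,
            -(fderiv ℝ (fun p => chris (g.coef a) p (deriv c s) (deriv c s)) (c s)
              (varC hc m v w a s).1
            + (2 : ℝ) • chris (g.coef a) (c s) (deriv c s) (varC hc m v w a s).2)) := by
        have hu : c s ∈ (chartAt E a).target := cc_mem_target hs
        exact hm.fderiv_geoField hu (varC hc m v w a s).1 (varC hc m v w a s).2
      rw [h2] at h1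
      exact ⟨(hasFDerivAt_fst (p := varC hc m v w a s)).comp_hasDerivAt s h1,
        (hasFDerivAt_snd (p := varC hc m v w a s)).comp_hasDerivAt s h1⟩
    have hJv : ∀ s, geoC hc m v s ∈ (chartAt E a).source → J s = (varC hc m v w a s).1 :=
      fun s hs => fderiv_expgC hc m v w a s hs
    have hJe : ∀ s, geoC hc m v s ∈ (chartAt E a).source →
        J =ᶠ[𝓝 s] fun s => (varC hc m v w a s).1 := by
      intro s hs
      filter_upwards [evSource' (hgeo.continuousAt s) hs] with r hr
      exact hJv r hr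
    have hJd : ∀ s, geoC hc m v s ∈ (chartAt E a).source →
        HasDerivAt J (varC hc m v w a s).2 s := fun s hs =>
      (hv s hs).1.congr_of_eventuallyEq (hJe s hs)
    have hJ'e : deriv J =ᶠ[𝓝 t] fun s => (varC hc m v w a s).2 := by
      filter_upwards [hsrc] with s hs
      exact (hJd s hs).deriv
    have hJ'' : HasDerivAt (deriv J)
        (- (fderiv ℝ (fun p => chris (g.coef a) p (deriv c t) (deriv c t)) (c t) (J t)
          + (2 : ℝ) • chris (g.coef a) (c t) (deriv c t) (deriv J t))) t := by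
      rw [hJv t ha', (hJd t ha').deriv]
      exact (hv t ha').2.congr_of_eventuallyEq hJ'e
    have hcev : ∀ᶠ s in 𝓝 t, DifferentiableAt ℝ c s ∧ DifferentiableAt ℝ (deriv c) s ∧
        deriv (deriv c) s = - chris (g.coef a) (c s) (deriv c s) (deriv c s) := by
      filter_upwards [hsrc] with s hs
      exact hgeo.eqn a s (mem_univ _) hs
    have hJev : ∀ᶠ s in 𝓝 t, DifferentiableAt ℝ J s := by
      filter_upwards [hsrc] with s hs
      exact (hJd s hs).differentiableAt
    obtain ⟨h1, h2⟩ := hm.jacobi_of_linearized (cc_mem_target ha') hcev hJev hJ''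
    exact ⟨(hJd t ha').differentiableAt, h1, h2⟩

theorem isExp_expgC {g : Metric E M} (hc : Cpl g) : IsExp g (expC hc) where
  zero m := by
    have h := expg_smulC hc m 0 0
    rw [zero_smul, geo_zeroC] at h
    exact h
  cont := continuous_expgC hc
  geod m v := by
    rw [expg_smul_funC]
    exact isGeodesic_geoC hc m v
  init m v := by
    have h1 : (fun t : ℝ => chartAt E m (expC hc m (t • v))) = cc (geoC hc m v) m := by
      funext t
      rw [expg_smulC]
      rfl
    rw [h1]
    have h2 := ((isGeodesic_geoC hc m v).eqn m 0 (mem_univ _)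
      (by rw [geo_zeroC]; exact mem_chart_source E m)).1.hasDerivAt
    rw [deriv_geoC] at h2
    exact h2
  uniq γ hγ t := by
    rw [expg_smulC]
    have h : γ = geoC hc (γ 0) (deriv (cc (E := E) γ (γ 0)) 0) := by
      apply IsGeodesic.ext hγ (isGeodesic_geoC hc _ _) (t₀ := 0) (a := γ 0)
      · rw [geo_zeroC]
      · exact mem_chart_source E _
      · rw [deriv_geoC]
    exact congrFun h t
  smooth m v a ha := (contDiffAt_expgC hc m v a ha).of_le (by simp only [WithTop.one_le_coe, le_top])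
  jac m v w := isJacobi_expgC hc m v w
  jac_init m v w := by
    have ha : geoC hc m v 0 ∈ (chartAt E m).source := by
      rw [geo_zeroC]; exact mem_chart_source E m
    have h1 := hasDerivAt_varC hc m v w m 0 ha
    have h0 : varC hc m v w m 0 = (0, w) := by
      unfold varC
      have : (fun w' => stC hc m m (0, w')) = fun w' => (chartAt E m m, w') := by
        funext w'; exact st_zeroC hc m w'
      rw [this]
      have h2 : HasFDerivAt (fun w' : E => (chartAt E m m, w'))
          (((0 : E →L[ℝ] E)).prod (ContinuousLinearMap.id ℝ E)) v :=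
        (hasFDerivAt_const _ _).prodMk (hasFDerivAt_id v)
      rw [h2.fderiv]
      simp only [ContinuousLinearMap.prod_apply, zero_apply, ContinuousLinearMap.id_apply]
    have h2 : HasDerivAt (fun s => (varC hc m v w m s).1) w 0 := by
      have h3 := (hasFDerivAt_fst (p := varC hc m v w m 0)).comp_hasDerivAt (0 : ℝ) h1
      have h4 := (g.isMetricOn m).fderiv_geoField (u := cc (geoC hc m v) m 0)
        (v := deriv (cc (geoC hc m v) m) 0) (cc_mem_target ha) (varC hc m v w m 0).1
        (varC hc m v w m 0).2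
      have h5 : fderiv ℝ (geoField (g.coef m)) (stC hc m m (0, v)) (varC hc m v w m 0)
          = fderiv ℝ (geoField (g.coef m)) (cc (geoC hc m v) m 0, deriv (cc (geoC hc m v) m) 0)
            ((varC hc m v w m 0).1, (varC hc m v w m 0).2) := rfl
      rw [h5, h4, h0] at h3
      exact h3
    refine h2.congr_of_eventuallyEq ?_
    filter_upwards [evSource' ((isGeodesic_geoC hc m v).continuousAt 0) ha] with s hs
    exact fderiv_expgC hc m v w m s hs


end Vale.Agent.P219.H381
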