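import Vale.Agent.P255.FinalDefs
import Vale.Agent.P219.CoDefs

/-!
# P219: definitions for abstract Riemannian manifolds
`M` is a smooth manifold without boundary modelled on `V`, and `g` is one of Mathlib's `C^∞`
Riemannian metrics on `M`.
-/

open scoped Manifold ContDiff ENNReal
open Set MeasureTheory

noncomputable section

namespace Vale.Agent.P219.Mfd

open Vale.Agent.P255 (RMetric coefIn Gam Riem IsGeo)

section Generic

variable {V : Type} [NormedAddCommGroup V] [NormedSpace ℝ V]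
variable {M : Type} [TopologicalSpace M] [ChartedSpace V M]

/-- `f` is a defining function of `Ω` in the open set `U`: `f` is smooth in `U`, `Ω` is `{f < 0}`
in `U`, and `df ≠ 0` at the boundary points of `Ω` in `U`. -/
structure IsDefining (Ω U : Set M) (f : M → ℝ) : Prop where
  isOpen : IsOpen U
  smooth : ContMDiffOn 𝓘(ℝ, V) 𝓘(ℝ, ℝ) ∞ f U
  neg : Ω ∩ U = {x ∈ U | f x < 0}
  regular : ∀ p ∈ frontier Ω ∩ U, mfderiv 𝓘(ℝ, V) 𝓘(ℝ, ℝ) f p ≠ 0

variable (V) in
/-- Domains: bounded (relatively compact) open sets with smooth boundary. -/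
structure IsDomain (Ω : Set M) : Prop where
  isOpen : IsOpen Ω
  bounded : IsCompact (closure Ω)
  smooth : ∀ p ∈ frontier Ω, ∃ U f, p ∈ U ∧ IsDefining (V := V) Ω U f

variable [IsManifold 𝓘(ℝ, V) ∞ M]

/-- Completeness: for every tangent vector `v` at a point `p` there is a geodesic `γ : ℝ → M`,
defined for all times, with `γ 0 = p` and `γ' 0 = v`. -/
def Complete (g : RMetric V M) : Prop :=
  ∀ (p : M) (v : TangentSpace 𝓘(ℝ, V) p), ∃ γ : ℝ → M, IsGeo g γ ∧ γ 0 = p ∧
    mfderiv 𝓘(ℝ, ℝ) 𝓘(ℝ, V) γ 0 (1 : ℝ) = v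

/-- `Sec ≤ K`: `⟨R(v,w)w, v⟩ ≤ K (|v|² |w|² - ⟨v,w⟩²)` for all tangent vectors `v, w` at all points
(components in the chart at `a`). -/
def SecLE (g : RMetric V M) (K : ℝ) : Prop :=
  ∀ a : M, ∀ u ∈ (chartAt V a).target, ∀ v w : V,
    coefIn g a u (Riem (coefIn g a) u v w w) v ≤
      K * (coefIn g a u v v * coefIn g a u w w - coefIn g a u v w ^ 2)

/-- The inner product `g (dφ v, dφ w)` at the point `φ y`, for a map `φ : W → M`. -/
def pullInner {W : Type} [NormedAddCommGroup W] [NormedSpace ℝ W] (g : RMetric V M) (φ : W → M)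
    (y v w : W) : ℝ :=
  g.inner (φ y) (mfderiv 𝓘(ℝ, W) 𝓘(ℝ, V) φ y v) (mfderiv 𝓘(ℝ, W) 𝓘(ℝ, V) φ y w)

variable (V) in
/-- Smooth maps from an open subset `B` of `W` to `M`. -/
def SmoothMapOn {W : Type} [NormedAddCommGroup W] [NormedSpace ℝ W] (φ : W → M) (B : Set W) :
    Prop := ContMDiffOn 𝓘(ℝ, W) 𝓘(ℝ, V) ∞ φ B

end Generic

open Vale.Agent.P219.Co (E pd sn)
open Matrix

variable {n : ℕ} {M : Type} [TopologicalSpace M] [ChartedSpace (E n) M]

/-- The differential of `f` at the point `u` of the chart at `a`: the vector `(∂ᵢ f)`. -/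
def diffIn (f : M → ℝ) (a : M) (u : E n) (i : Fin n) : ℝ :=
  pd i (fun x => f ((chartAt (E n) a).symm x)) u

variable [IsManifold 𝓘(ℝ, E n) ∞ M]

/-- The matrix `gᵢⱼ` at the point `u` of the chart at `a`. -/
def gram (g : RMetric (E n) M) (a : M) (u : E n) : Matrix (Fin n) (Fin n) ℝ :=
  Matrix.of fun i j => coefIn g a u (EuclideanSpace.single i 1) (EuclideanSpace.single j 1)

/-- `μ` is the Riemannian volume: in every chart it is `√(det gᵢⱼ) dx`. -/
def IsVol [MeasurableSpace M] (g : RMetric (E n) M) (μ : Measure M) : Prop :=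
  ∀ (a : M) (s : Set M), MeasurableSet s → s ⊆ (chartAt (E n) a).source →
    μ s = ∫⁻ u in (chartAt (E n) a) '' s, ENNReal.ofReal √(gram g a u).det

/-- `σ` is the Riemannian area of the boundary of `Ω` (the `(n-1)`-dimensional Riemannian measure
of `∂Ω`): in every chart, and for every local defining function `f` of `Ω`, it is
`√(det g) |ν|_g dH`, where `dH` is the Euclidean `(n-1)`-dimensional Hausdorff measure of the
hypersurface, `ν = df / |df|` its Euclidean unit conormal and `|p|_g = √(gⁱʲ pᵢ pⱼ)`. -/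
def IsArea [MeasurableSpace M] (g : RMetric (E n) M) (Ω : Set M) (σ : Measure M) : Prop :=
  ∀ (a : M) (U : Set M) (f : M → ℝ) (s : Set M), IsDefining (V := E n) Ω U f →
    MeasurableSet s → s ⊆ U → s ⊆ (chartAt (E n) a).source →
    σ s = ∫⁻ u in (chartAt (E n) a) '' (s ∩ frontier Ω), ENNReal.ofReal
      (√(gram g a u).det * √(diffIn f a u ⬝ᵥ (gram g a u)⁻¹ *ᵥ diffIn f a u) /
        √(∑ i, diffIn f a u i ^ 2)) ∂(μHE[n - 1] : Measure (E n))

/-- `Ω`, with the metric induced by `g`, is isometric to a geodesic ball of radius `r` in the space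
form of curvature `K ≤ 0`. The space form (hyperboloid model, projected orthogonally to `ℝⁿ`) is
`ℝⁿ` with the metric `δᵢⱼ + K yᵢ yⱼ / (1 - K |y|²)`; the geodesic ball of radius `r` about `0` is
`B = {|y| < sn r}`. -/
def IsometricToBall (g : RMetric (E n) M) (K : ℝ) (Ω : Set M) (r : ℝ) : Prop :=
  ∃ (φ : E n → M) (B : Set (E n)), B = {y | ∑ i, y i ^ 2 < sn √(-K) r ^ 2} ∧
    SmoothMapOn (E n) φ B ∧ InjOn φ B ∧ φ '' B = Ω ∧
    ∀ y ∈ B, ∀ i j, pullInner g φ y (EuclideanSpace.single i 1) (EuclideanSpace.single j 1) =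
      (if i = j then 1 else 0) + K * y i * y j / (1 - K * ∑ m, y m ^ 2)

end Vale.Agent.P219.Mfd
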