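import Vale.Agent.P219.H381.Area2
import Vale.Agent.P219.CoIsoK

/-!
# P219: transfer from the manifold to the global chart
-/

open scoped Manifold ContDiff Topology ENNReal
open Set Filter MeasureTheory

set_option maxSynthPendingDepth 3
set_option linter.all false

noncomputable section

namespace Vale.Agent.P219H381

open Vale.Agent.P219.H381
open Vale.Agent.P255 (RMetric coefIn Gam Riem IsGeo curveIn)
open Vale.Agent.P219.RG (toMetric coefL IsGeodesic covDer_eq IsMetricOn Npc)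
open Vale.Agent.P219.Co (E pd RiemMetric SmoothDomain volDensity gradNorm leb riemVol riemArea)
open Vale.Agent.P219.Mfd (gram diffIn IsDefining IsDomain Complete SecLE IsometricToBall IsVol
  IsArea pullInner SmoothMapOn)

variable {n : ℕ} {M : Type} [TopologicalSpace M] [ChartedSpace (E n) M]
  [IsManifold 𝓘(ℝ, E n) ∞ M]

theorem isGeodesic_of_isGeo {g : RMetric (E n) M} {γ : ℝ → M} (hγ : IsGeo g γ) :
    IsGeodesic (toMetric g) γ where
  cont := hγ.1.continuousOn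
  eqn := by
    intro a t _ ha
    obtain ⟨e1, e2, e3⟩ := hγ.2 a t ha
    have hcc : curveIn (E := E n) γ a = Vale.Agent.P219.RG.cc γ a := rfl
    rw [hcc] at e1 e2 e3
    refine ⟨e1, e2, ?_⟩
    have hm : Vale.Agent.P219.RG.cc (E := E n) γ a t ∈ (chartAt (E n) a).target := (chartAt (E n) a).map_source ha
    rw [covDer_eq (F := coefIn g a) (G := coefL g a) (isMetricOn_coefL g a) (fun u _ v w => rfl) hm] at e3
    unfold Vale.Agent.P219.RG.covD at e3
    exact eq_neg_of_add_eq_zero_left e3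

theorem mfderiv_curve {γ : ℝ → M} (hc : Continuous γ)
    (hd : DifferentiableAt ℝ (Vale.Agent.P219.RG.cc (E := E n) γ (γ 0)) 0) :
    (mfderiv 𝓘(ℝ, ℝ) 𝓘(ℝ, E n) γ 0 (1 : ℝ) : E n) = deriv (Vale.Agent.P219.RG.cc (E := E n) γ (γ 0)) 0 := by
  have h : MDifferentiableAt 𝓘(ℝ, ℝ) 𝓘(ℝ, E n) γ 0 := by
    rw [mdifferentiableAt_iff]
    refine ⟨hc.continuousAt, ?_⟩
    simp only [modelWithCornersSelf_coe, range_id, differentiableWithinAt_univ]
    exact hd
  have h2 : fderivWithin ℝ (writtenInExtChartAt 𝓘(ℝ, ℝ) 𝓘(ℝ, E n) (0 : ℝ) γ)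
      (range 𝓘(ℝ, ℝ)) (extChartAt 𝓘(ℝ, ℝ) (0 : ℝ) 0) =
      fderiv ℝ (Vale.Agent.P219.RG.cc (E := E n) γ (γ 0)) 0 := by
    simp only [modelWithCornersSelf_coe, range_id, fderivWithin_univ]
    rfl
  have h3 := h.mfderiv.trans h2
  exact congrArg (fun L : ℝ →L[ℝ] E n => L 1) h3

theorem cpl_of_complete {g : RMetric (E n) M} (hc : Complete g) : Cpl (toMetric g) := by
  intro m v
  obtain ⟨γ, hγ, h0, h1⟩ := hc m v
  refine ⟨γ, isGeodesic_of_isGeo hγ, h0, ?_⟩
  have h2 : DifferentiableAt ℝ (Vale.Agent.P219.RG.cc (E := E n) γ (γ 0)) 0 :=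
    (hγ.2 (γ 0) 0 (mem_chart_source _ _)).1
  have h3 := mfderiv_curve hγ.1 h2
  rw [h0] at h3
  rw [← h3]
  exact h1

theorem cs {V : Type} [NormedAddCommGroup V] [NormedSpace ℝ V] {G : V → V →L[ℝ] V →L[ℝ] ℝ}
    {U : Set V} (h : IsMetricOn G U) {u : V} (hu : u ∈ U) (v w : V) :
    0 ≤ G u v v * G u w w - G u v w ^ 2 := by
  by_cases hw : w = 0
  · simp [hw]
  have hp := h.pos u hu w hw
  have h1 := h.nonneg hu (G u w w • v - G u v w • w)
  simp only [map_sub, map_smul, sub_apply, smul_apply, smul_eq_mul] at h1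
  rw [h.symm u hu w v] at h1
  have h2 : 0 ≤ G u w w * (G u v v * G u w w - G u v w ^ 2) := by
    have e : G u w w * (G u v v * G u w w - G u v w ^ 2) =
      G u w w * (G u w w * G u v v - G u v w * G u v w) -
        G u v w * (G u w w * G u v w - G u v w * G u w w) := by ring
    rw [e]
    linarith
  exact nonneg_of_mul_nonneg_right h2 hp

theorem npc_of_sec {g : RMetric (E n) M} {K : ℝ} (hK : K ≤ 0) (hs : SecLE g K) :
    Npc (toMetric g) := by
  intro a u hu v w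
  have h1 := hs a u hu v w
  rw [riem_coefIn g hu] at h1
  have h2 := cs (isMetricOn_coefL g a) hu v w
  refine le_trans h1 ?_
  exact mul_nonpos_of_nonpos_of_nonneg hK h2

theorem complete_pl {g : RMetric (E n) M} (hc : Complete g)
    (Ψ : E n ≃ₘ^∞⟮𝓘(ℝ, E n), 𝓘(ℝ, E n)⟯ M) :
    Vale.Agent.P219.Co.GeodesicallyComplete (pl g Ψ) :=
  complete_toRiem (isMetricOn_pb Ψ g) (complete_pb Ψ g (cpl_of_complete hc))

theorem secLE_pl {g : RMetric (E n) M} {K : ℝ} (hs : SecLE g K)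
    (Ψ : E n ≃ₘ^∞⟮𝓘(ℝ, E n), 𝓘(ℝ, E n)⟯ M) : Vale.Agent.P219.Co.SecLE (pl g Ψ) K :=
  secLE_toRiem (isMetricOn_pb Ψ g) fun x u v => sec_pb Ψ g hs x u v

/-- the Cartan-Hadamard theorem -/
theorem exists_chart [T2Space M] [SimplyConnectedSpace M] {g : RMetric (E n) M} {K : ℝ}
    (hK : K ≤ 0) (hc : Complete g) (hs : SecLE g K) :
    Nonempty (E n ≃ₘ^∞⟮𝓘(ℝ, E n), 𝓘(ℝ, E n)⟯ M) := by
  obtain ⟨m⟩ : Nonempty M := inferInstance
  obtain ⟨Ψ, -⟩ := cartanHadamard (cpl_of_complete hc) (npc_of_sec hK hs) m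
  exact ⟨Ψ⟩

theorem domain_pl (Ψ : E n ≃ₘ^∞⟮𝓘(ℝ, E n), 𝓘(ℝ, E n)⟯ M) {Ω : Set M}
    (hΩ : IsDomain (E n) Ω) : ∃ D : SmoothDomain n, D.carrier = Ψ ⁻¹' Ω := by
  have hh : IsOpen (Ψ ⁻¹' Ω) := hΩ.isOpen.preimage Ψ.continuous
  have hcl : closure (Ψ ⁻¹' Ω) = Ψ ⁻¹' (closure Ω) :=
    (Ψ.toHomeomorph.preimage_closure Ω).symm
  have hfr : frontier (Ψ ⁻¹' Ω) = Ψ ⁻¹' (frontier Ω) :=
    (Ψ.toHomeomorph.preimage_frontier Ω).symm
  apply exists_smoothDomain hh
  · have h1 : IsCompact (Ψ ⁻¹' (closure Ω)) :=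
      (Ψ.toHomeomorph.isCompact_preimage).2 hΩ.bounded
    exact h1.isBounded.subset (by rw [← hcl]; exact subset_closure)
  · intro p hp
    rw [hfr] at hp
    obtain ⟨U, f, h2, ⟨h1, h3, h5, h4'⟩⟩ := hΩ.smooth (Ψ p) hp
    have h4 := h4' (Ψ p) ⟨hp, h2⟩
    have hfd : MDifferentiableAt 𝓘(ℝ, E n) 𝓘(ℝ, ℝ) f (Ψ p) :=
      (h3.contMDiffAt (h1.mem_nhds h2)).mdifferentiableAt (by simp)
    have hΨd : MDifferentiableAt 𝓘(ℝ, E n) 𝓘(ℝ, E n) Ψ p :=
      (Ψ.contMDiff p).mdifferentiableAt (by simp)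
    refine ⟨Ψ ⁻¹' U, f ∘ Ψ, h1.preimage Ψ.continuous, h2, ?_, ?_, ?_⟩
    · rw [← contMDiffOn_iff_contDiffOn]
      exact h3.comp Ψ.contMDiff.contMDiffOn (fun x hx => hx)
    · rw [← mfderiv_eq_fderiv]
      have e := mfderiv_comp p hfd hΨd
      rw [e]
      intro h0
      apply h4
      have hsurj : Function.Surjective (mfderiv 𝓘(ℝ, E n) 𝓘(ℝ, E n) Ψ p) := by
        let D : E n →L[ℝ] E n := mfderiv 𝓘(ℝ, E n) 𝓘(ℝ, E n) Ψ p
        have hinj : Function.Injective (D : E n →ₗ[ℝ] E n) := by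
          rw [injective_iff_map_eq_zero]
          intro v hv
          apply tau_injective Ψ (a := Ψ p) (mem_chart_source _ _)
          rw [← mfderiv_eq Ψ p]
          exact hv
        have hsj : Function.Surjective (D : E n →ₗ[ℝ] E n) :=
          LinearMap.injective_iff_surjective.1 hinj
        exact hsj
      ext w
      obtain ⟨v, rfl⟩ := hsurj w
      exact congrArg (fun L => L v) h0
    · ext x
      constructor
      · rintro ⟨hx1, hx2⟩
        have : Ψ x ∈ Ω ∩ U := ⟨hx1, hx2⟩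
        rw [h5] at this
        exact ⟨this.1, this.2⟩
      · rintro ⟨hx1, hx2⟩
        have : Ψ x ∈ {x ∈ U | f x < 0} := ⟨hx1, hx2⟩
        rw [← h5] at this
        exact ⟨this.1, this.2⟩

/-- composition of a map with the global chart -/
theorem inner_comp (g : RMetric (E n) M) (Ψ : E n ≃ₘ^∞⟮𝓘(ℝ, E n), 𝓘(ℝ, E n)⟯ M)
    {φ : E n → E n} {y : E n} (hφ : DifferentiableAt ℝ φ y) (v w : E n) :
    g.inner (Ψ (φ y)) (mfderiv 𝓘(ℝ, E n) 𝓘(ℝ, E n) (fun z => Ψ (φ z)) y v)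
      (mfderiv 𝓘(ℝ, E n) 𝓘(ℝ, E n) (fun z => Ψ (φ z)) y w) =
      pb g Ψ (φ y) (fderiv ℝ φ y v) (fderiv ℝ φ y w) := by
  have h1 : MDifferentiableAt 𝓘(ℝ, E n) 𝓘(ℝ, E n) Ψ (φ y) :=
    (Ψ.contMDiff _).mdifferentiableAt (by simp)
  have h2 : MDifferentiableAt 𝓘(ℝ, E n) 𝓘(ℝ, E n) φ y := hφ.mdifferentiableAt
  have h3 := mfderiv_comp y h1 h2
  rw [mfderiv_eq_fderiv] at h3
  have h4 : ∀ v : E n, mfderiv 𝓘(ℝ, E n) 𝓘(ℝ, E n) (fun z => Ψ (φ z)) y v =
      mfderiv 𝓘(ℝ, E n) 𝓘(ℝ, E n) Ψ (φ y) (fderiv ℝ φ y v) :=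
    fun v => congrArg (fun L => L v) h3
  rw [h4, h4]
  rfl

theorem isometric_of_pl (g : RMetric (E n) M) (Ψ : E n ≃ₘ^∞⟮𝓘(ℝ, E n), 𝓘(ℝ, E n)⟯ M)
    {K r : ℝ} {D : SmoothDomain n} {Ω : Set M} (hD : D.carrier = Ψ ⁻¹' Ω)
    (h : Vale.Agent.P219.Co.IsometricToBallK (pl g Ψ) K D r) : IsometricToBall g K Ω r := by
  obtain ⟨φ, h1, h2, h3, h4⟩ := h
  have hopen : IsOpen {y : E n | ∑ i, y i ^ 2 < Vale.Agent.P219.Co.sn √(-K) r ^ 2} :=
    isOpen_lt (by fun_prop) continuous_const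
  have hcd : ContDiffOn ℝ ∞ φ {y | ∑ i, y i ^ 2 < Vale.Agent.P219.Co.sn √(-K) r ^ 2} := by
    rw [contDiffOn_piLp]
    exact h1
  refine ⟨fun y => Ψ (φ y), _, rfl, ?_, ?_, ?_, ?_⟩
  · exact Ψ.contMDiff.contMDiffOn.comp (t := univ) hcd.contMDiffOn (fun _ _ => mem_univ _)
  · intro x hx y hy hxy
    exact h2 hx hy (Ψ.injective hxy)
  · have e : (fun y => Ψ (φ y)) = Ψ ∘ φ := rfl
    rw [e, image_comp, h3, hD]
    exact image_preimage_eq Ω Ψ.surjective
  · intro y hy i j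
    have hd : DifferentiableAt ℝ φ y :=
      (hcd.contDiffAt (hopen.mem_nhds hy)).differentiableAt (by simp)
    unfold pullInner
    rw [inner_comp g Ψ hd, ← h4 y hy i j]
    have e : ∀ (i k : Fin n), pd i (fun z => φ z k) y =
        (fderiv ℝ φ y (EuclideanSpace.single i 1)) k := by
      intro i k
      have h5 : HasFDerivAt (fun z => φ z k)
          ((EuclideanSpace.proj k : E n →L[ℝ] ℝ).comp (fderiv ℝ φ y)) y :=
        (EuclideanSpace.proj k : E n →L[ℝ] ℝ).hasFDerivAt.comp y hd.hasFDerivAt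
      rw [pd_eq h5.differentiableAt, h5.fderiv]
      rfl
    have hm := isMetricOn_pb Ψ g
    rw [H_sum_left]
    refine Finset.sum_congr rfl fun k _ => ?_
    rw [e i k]
    rw [hm.symm _ (mem_univ _), H_sum_left, Finset.mul_sum]
    refine Finset.sum_congr rfl fun l _ => ?_
    rw [toRiem_apply, e j l, hm.symm _ (mem_univ _) (bv l) (bv k)]
    ring

theorem sum_pl (g : RMetric (E n) M) (Ψ : E n ≃ₘ^∞⟮𝓘(ℝ, E n), 𝓘(ℝ, E n)⟯ M) {φ : E n → E n}
    {y : E n} (hd : DifferentiableAt ℝ φ y) (i j : Fin n) :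
    ∑ k, ∑ l, (pl g Ψ).g (φ y) k l * pd i (fun z => φ z k) y * pd j (fun z => φ z l) y =
      pb g Ψ (φ y) (fderiv ℝ φ y (bv i)) (fderiv ℝ φ y (bv j)) := by
  have e : ∀ (i k : Fin n), pd i (fun z => φ z k) y =
      (fderiv ℝ φ y (EuclideanSpace.single i 1)) k := by
    intro i k
    have h5 : HasFDerivAt (fun z => φ z k)
        ((EuclideanSpace.proj k : E n →L[ℝ] ℝ).comp (fderiv ℝ φ y)) y :=
      (EuclideanSpace.proj k : E n →L[ℝ] ℝ).hasFDerivAt.comp y hd.hasFDerivAt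
    rw [pd_eq h5.differentiableAt, h5.fderiv]
    rfl
  have hm := isMetricOn_pb Ψ g
  symm
  rw [H_sum_left]
  refine Finset.sum_congr rfl fun k _ => ?_
  rw [e i k]
  rw [hm.symm _ (mem_univ _), H_sum_left, Finset.mul_sum]
  refine Finset.sum_congr rfl fun l _ => ?_
  rw [toRiem_apply, e j l, hm.symm _ (mem_univ _) (bv l) (bv k)]
  ring

theorem pl_of_isometric (g : RMetric (E n) M) (Ψ : E n ≃ₘ^∞⟮𝓘(ℝ, E n), 𝓘(ℝ, E n)⟯ M)
    {K r : ℝ} {D : SmoothDomain n} {Ω : Set M} (hD : D.carrier = Ψ ⁻¹' Ω)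
    (h : IsometricToBall g K Ω r) : Vale.Agent.P219.Co.IsometricToBallK (pl g Ψ) K D r := by
  obtain ⟨φ, B, rfl, h1, h2, h3, h4⟩ := h
  have hopen : IsOpen {y : E n | ∑ i, y i ^ 2 < Vale.Agent.P219.Co.sn √(-K) r ^ 2} :=
    isOpen_lt (by fun_prop) continuous_const
  have hcd : ContDiffOn ℝ ∞ (fun y => Ψ.symm (φ y))
      {y : E n | ∑ i, y i ^ 2 < Vale.Agent.P219.Co.sn √(-K) r ^ 2} := by
    rw [← contMDiffOn_iff_contDiffOn]
    exact Ψ.symm.contMDiff.contMDiffOn.comp (t := univ) h1 (fun _ _ => mem_univ _)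
  refine ⟨fun y => Ψ.symm (φ y), ?_, ?_, ?_, ?_⟩
  · rw [contDiffOn_piLp] at hcd
    exact hcd
  · intro x hx y hy hxy
    exact h2 hx hy (Ψ.symm.injective hxy)
  · rw [hD, ← h3]
    ext x
    constructor
    · rintro ⟨y, hy, rfl⟩
      refine ⟨y, hy, ?_⟩
      exact (Ψ.apply_symm_apply _).symm
    · rintro ⟨y, hy, he⟩
      refine ⟨y, hy, ?_⟩
      change Ψ.symm (φ y) = x
      rw [he]
      exact Ψ.symm_apply_apply x
  · intro y hy i j
    have hd : DifferentiableAt ℝ (fun y => Ψ.symm (φ y)) y :=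
      (hcd.contDiffAt (hopen.mem_nhds hy)).differentiableAt (by simp)
    have h5 : pullInner g (fun z => Ψ (Ψ.symm (φ z))) y (EuclideanSpace.single i 1)
        (EuclideanSpace.single j 1) = _ := inner_comp g Ψ hd (bv i) (bv j)
    have e : (fun z => Ψ (Ψ.symm (φ z))) = φ := by
      funext z; exact Ψ.apply_symm_apply _
    rw [e] at h5
    rw [← h4 y hy i j, sum_pl g Ψ hd]
    exact h5.symm

/-! ### the measures -/

section Meas

variable [MeasurableSpace M] [BorelSpace M]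
variable (g : RMetric (E n) M) (Ψ : E n ≃ₘ^∞⟮𝓘(ℝ, E n), 𝓘(ℝ, E n)⟯ M)

/-- the volume measure -/
def volM : Measure M :=
  ((leb n).withDensity fun x => ENNReal.ofReal (volDensity (pl g Ψ) x)).map Ψ

/-- the area measure -/
def areaM (D : SmoothDomain n) : Measure M :=
  (((μHE[n - 1] : Measure (E n)).restrict {x | D.ρ x = 0}).withDensity fun x =>
    ENNReal.ofReal (volDensity (pl g Ψ) x * gradNorm (pl g Ψ) D.ρ x /
      √(∑ i, pd i D.ρ x ^ 2))).map Ψ

theorem volM_apply {s : Set M} (hs : MeasurableSet s) :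
    volM g Ψ s = riemVol (pl g Ψ) (Ψ ⁻¹' s) := by
  unfold volM riemVol
  rw [Measure.map_apply (measurable_Psi Ψ) hs, withDensity_apply _ (measurable_Psi Ψ hs)]

theorem areaM_apply (D : SmoothDomain n) {s : Set M} (hs : MeasurableSet s) :
    areaM g Ψ D s = ∫⁻ x in {x | D.ρ x = 0} ∩ Ψ ⁻¹' s, ENNReal.ofReal
      (volDensity (pl g Ψ) x * gradNorm (pl g Ψ) D.ρ x / √(∑ i, pd i D.ρ x ^ 2))
        ∂(μHE[n - 1] : Measure (E n)) := by
  unfold areaM
  rw [Measure.map_apply (measurable_Psi Ψ) hs, withDensity_apply _ (measurable_Psi Ψ hs),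
    Measure.restrict_restrict (measurable_Psi Ψ hs), inter_comm]

theorem areaM_univ (D : SmoothDomain n) : areaM g Ψ D univ = riemArea (pl g Ψ) D := by
  rw [areaM_apply g Ψ D MeasurableSet.univ, preimage_univ, inter_univ]
  rfl

theorem isVol_volM : IsVol g (volM g Ψ) := fun a s hs hsa => by
  rw [volM_apply g Ψ hs, vol_chart g Ψ hs hsa]

theorem isArea_areaM {Ω : Set M} {D : SmoothDomain n} (hD : D.carrier = Ψ ⁻¹' Ω) :
    IsArea g Ω (areaM g Ψ D) := fun a U f s hf hs hsU hsa => by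
  rw [areaM_apply g Ψ D hs, area_chart g Ψ hD hf hs hsU hsa]

include Ψ in
theorem secondCountable_M : SecondCountableTopology M :=
  Ψ.toHomeomorph.symm.secondCountableTopology

omit [IsManifold 𝓘(ℝ, E n) ∞ M] in
/-- measures which agree near every point are equal -/
theorem measure_ext_local [SecondCountableTopology M] {μ ν : Measure M}
    (h : ∀ p : M, ∃ W : Set M, IsOpen W ∧ p ∈ W ∧ ∀ s, MeasurableSet s → s ⊆ W → μ s = ν s) :
    μ = ν := by
  choose W hW hp hs using h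
  obtain ⟨c, hc, hcov⟩ := TopologicalSpace.countable_cover_nhds
    (fun p => (hW p).mem_nhds (hp p))
  have : Countable c := hc.to_subtype
  have hU : ⋃ i : c, W i = univ := by rw [iUnion_coe_set]; exact hcov
  refine (Measure.ext_iff_of_iUnion_eq_univ hU).2 fun i => ?_
  ext t ht
  rw [Measure.restrict_apply ht, Measure.restrict_apply ht]
  exact hs i _ (ht.inter (hW i).measurableSet) inter_subset_right

theorem isVol_unique [SecondCountableTopology M] {μ ν : Measure M} (hμ : IsVol g μ)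
    (hν : IsVol g ν) : μ = ν := by
  refine measure_ext_local fun p => ⟨(chartAt (E n) p).source, (chartAt (E n) p).open_source,
    mem_chart_source _ p, fun s hs hsa => ?_⟩
  rw [hμ p s hs hsa, hν p s hs hsa]

theorem isArea_unique [SecondCountableTopology M] {Ω : Set M} (hΩ : IsDomain (E n) Ω)
    {μ ν : Measure M} (hμ : IsArea g Ω μ) (hν : IsArea g Ω ν) : μ = ν := by
  have key : ∀ p : M, ∃ U f, p ∈ U ∧ IsDefining (V := E n) Ω U f := by
    intro p
    by_cases h1 : p ∈ Ω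
    · refine ⟨Ω, fun _ => -1, h1, hΩ.isOpen, contMDiffOn_const, ?_, ?_⟩
      · ext x; simp
      · intro x hx
        have h2 := hx.1
        rw [hΩ.isOpen.frontier_eq] at h2
        exact absurd hx.2 h2.2
    by_cases h2 : p ∈ closure Ω
    · exact hΩ.smooth p (by rw [hΩ.isOpen.frontier_eq]; exact ⟨h2, h1⟩)
    · refine ⟨(closure Ω)ᶜ, fun _ => 1, h2, isClosed_closure.isOpen_compl, contMDiffOn_const,
        ?_, ?_⟩
      · ext x
        simp only [mem_inter_iff, mem_compl_iff, mem_ofPred_eq]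
        constructor
        · rintro ⟨h3, h4⟩; exact absurd (subset_closure h3) h4
        · rintro ⟨_, h4⟩; exact absurd h4 (by norm_num)
      · intro x hx
        exact absurd (frontier_subset_closure hx.1) hx.2
  refine measure_ext_local fun p => ?_
  obtain ⟨U, f, hpU, hf⟩ := key p
  refine ⟨U ∩ (chartAt (E n) p).source, hf.isOpen.inter (chartAt (E n) p).open_source,
    ⟨hpU, mem_chart_source _ p⟩, fun s hs hsW => ?_⟩
  rw [hμ p U f s hf hs (hsW.trans inter_subset_left) (hsW.trans inter_subset_right),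
    hν p U f s hf hs (hsW.trans inter_subset_left) (hsW.trans inter_subset_right)]

end Meas

end Vale.Agent.P219H381
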