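import Vale.Agent.P219.H381.Coord

/-!
# P219: the pullback of a Riemannian metric by a global chart
-/

open scoped Manifold ContDiff Topology
open Set Filter

set_option maxSynthPendingDepth 3
set_option linter.all false

noncomputable section

namespace Vale.Agent.P219.H381

open Vale.Agent.P219.RG
open Vale.Agent.P255 (RMetric coefIn innerAt Gam Riem CovDer curveIn fieldIn IsGeo)

section Gen

variable {E : Type} [NormedAddCommGroup E] [NormedSpace ℝ E]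
variable {M : Type} [TopologicalSpace M] [ChartedSpace E M]

/-- the map `Ψ` read in the chart at `a` -/
def tau (Ψ : E → M) (a : M) (x : E) : E := chartAt E a (Ψ x)

/-- the inverse of `tau` -/
def sig (Φ : M → E) (a : M) (u : E) : E := Φ ((chartAt E a).symm u)

variable [IsManifold 𝓘(ℝ, E) ∞ M]

/-- the pullback of the metric -/
def pb (g : RMetric E M) (Ψ : E → M) (x : E) : E →L[ℝ] E →L[ℝ] ℝ :=
  let D : E →L[ℝ] E := mfderiv 𝓘(ℝ, E) 𝓘(ℝ, E) Ψ x
  let B : E →L[ℝ] E →L[ℝ] ℝ := g.inner (Ψ x)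
  B.bilinearComp D D

variable (Ψ : E ≃ₘ^∞⟮𝓘(ℝ, E), 𝓘(ℝ, E)⟯ M)

theorem contDiffAt_tau {a : M} {x : E} (ha : Ψ x ∈ (chartAt E a).source) :
    ContDiffAt ℝ ∞ (tau Ψ a) x := by
  have h1 : ContMDiffAt 𝓘(ℝ, E) 𝓘(ℝ, E) ∞ (chartAt E a) (Ψ x) :=
    (contMDiffOn_chart (I := 𝓘(ℝ, E)) (n := ∞) (x := a)).contMDiffAt
      ((chartAt E a).open_source.mem_nhds ha)
  exact (h1.comp x (Ψ.contMDiff x)).contDiffAt

theorem contDiffAt_sig {a : M} {u : E} (hu : u ∈ (chartAt E a).target) :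
    ContDiffAt ℝ ∞ (sig Ψ.symm a) u := by
  have h1 : ContMDiffAt 𝓘(ℝ, E) 𝓘(ℝ, E) ∞ (chartAt E a).symm u :=
    (contMDiffOn_chart_symm (I := 𝓘(ℝ, E)) (n := ∞) (x := a)).contMDiffAt
      ((chartAt E a).open_target.mem_nhds hu)
  exact ((Ψ.symm.contMDiff _).comp u h1).contDiffAt

theorem mfderiv_eq (x : E) :
    (mfderiv 𝓘(ℝ, E) 𝓘(ℝ, E) Ψ x : E →L[ℝ] E) = fderiv ℝ (tau Ψ (Ψ x)) x := by
  have h : MDifferentiableAt 𝓘(ℝ, E) 𝓘(ℝ, E) Ψ x := (Ψ.contMDiff x).mdifferentiableAt (by simp)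
  have h2 : fderivWithin ℝ (writtenInExtChartAt 𝓘(ℝ, E) 𝓘(ℝ, E) x Ψ)
      (range 𝓘(ℝ, E)) (extChartAt 𝓘(ℝ, E) x x) = fderiv ℝ (tau Ψ (Ψ x)) x := by
    simp only [modelWithCornersSelf_coe, range_id, fderivWithin_univ]
    rfl
  exact h.mfderiv.trans h2

theorem eventually_tau {a : M} {x : E} (ha : Ψ x ∈ (chartAt E a).source) :
    ∀ᶠ y in 𝓝 x, Ψ y ∈ (chartAt E a).source :=
  Ψ.continuous.continuousAt.preimage_mem_nhds ((chartAt E a).open_source.mem_nhds ha)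

theorem tau_trans {a b : M} {x : E} (ha : Ψ x ∈ (chartAt E a).source)
    (hb : Ψ x ∈ (chartAt E b).source) (v : E) :
    fderiv ℝ (trans E a b) (tau Ψ a x) (fderiv ℝ (tau Ψ a) x v) = fderiv ℝ (tau Ψ b) x v := by
  have hu : tau Ψ a x ∈ (chartAt E a).target := (chartAt E a).map_source ha
  have e : (chartAt E a).symm (tau Ψ a x) = Ψ x := (chartAt E a).left_inv ha
  have h1 := (contDiffAt_trans_chart (E := E) a b hu (by rw [e]; exact hb)).differentiableAt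
    (by simp)
  have h2 := (contDiffAt_tau Ψ ha).differentiableAt (by simp)
  have h3 : HasFDerivAt (trans E a b ∘ tau Ψ a) _ x :=
    HasFDerivAt.comp x h1.hasFDerivAt h2.hasFDerivAt
  have h4 : tau Ψ b =ᶠ[𝓝 x] trans E a b ∘ tau Ψ a := by
    filter_upwards [eventually_tau Ψ ha] with y hy
    simp only [tau, Function.comp, RG.trans, (chartAt E a).left_inv hy]
  rw [(h3.congr_of_eventuallyEq h4).fderiv]
  rfl

theorem pb_apply (g : RMetric E M) (x v w : E) :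
    pb g Ψ x v w = g.inner (Ψ x) (fderiv ℝ (tau Ψ (Ψ x)) x v : E)
      (fderiv ℝ (tau Ψ (Ψ x)) x w : E) := by
  rw [← mfderiv_eq]
  rfl

theorem pb_eq (g : RMetric E M) {a : M} {x : E} (ha : Ψ x ∈ (chartAt E a).source) (v w : E) :
    coefL g a (tau Ψ a x) (fderiv ℝ (tau Ψ a) x v) (fderiv ℝ (tau Ψ a) x w) = pb g Ψ x v w := by
  have hu : tau Ψ a x ∈ (chartAt E a).target := (chartAt E a).map_source ha
  have e : (chartAt E a).symm (tau Ψ a x) = Ψ x := (chartAt E a).left_inv ha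
  rw [coefL_apply g a hu (Ψ x) e.symm, tau_trans Ψ ha (mem_chart_source E _),
    tau_trans Ψ ha (mem_chart_source E _), pb_apply]

theorem sig_tau {a : M} {x : E} (ha : Ψ x ∈ (chartAt E a).source) :
    sig Ψ.symm a (tau Ψ a x) = x := by
  unfold sig tau
  rw [(chartAt E a).left_inv ha]
  exact Ψ.symm_apply_apply x

theorem Psi_sig (a : M) (u : E) : Ψ (sig Ψ.symm a u) = (chartAt E a).symm u :=
  Ψ.apply_symm_apply _

theorem sig_mem {a : M} {u : E} (hu : u ∈ (chartAt E a).target) :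
    Ψ (sig Ψ.symm a u) ∈ (chartAt E a).source := by
  rw [Psi_sig]; exact (chartAt E a).map_target hu

theorem tau_sig {a : M} {u : E} (hu : u ∈ (chartAt E a).target) :
    tau Ψ a (sig Ψ.symm a u) = u := by
  unfold tau
  rw [Psi_sig, (chartAt E a).right_inv hu]

theorem fderiv_tau_sig {a : M} {u : E} (hu : u ∈ (chartAt E a).target) (v : E) :
    fderiv ℝ (tau Ψ a) (sig Ψ.symm a u) (fderiv ℝ (sig Ψ.symm a) u v) = v := by
  have h1 := (contDiffAt_tau Ψ (sig_mem Ψ hu)).differentiableAt (by simp)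
  have h2 := (contDiffAt_sig Ψ hu).differentiableAt (by simp)
  have h3 : HasFDerivAt (tau Ψ a ∘ sig Ψ.symm a) _ u :=
    HasFDerivAt.comp u h1.hasFDerivAt h2.hasFDerivAt
  have h4 : id =ᶠ[𝓝 u] tau Ψ a ∘ sig Ψ.symm a := by
    filter_upwards [(chartAt E a).open_target.mem_nhds hu] with y hy
    exact (tau_sig Ψ hy).symm
  have h5 := (h3.congr_of_eventuallyEq h4).fderiv
  rw [fderiv_id] at h5
  exact (congrArg (fun L : E →L[ℝ] E => L v) h5).symm

theorem fderiv_sig_tau {a : M} {x : E} (ha : Ψ x ∈ (chartAt E a).source) (v : E) :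
    fderiv ℝ (sig Ψ.symm a) (tau Ψ a x) (fderiv ℝ (tau Ψ a) x v) = v := by
  have hu : tau Ψ a x ∈ (chartAt E a).target := (chartAt E a).map_source ha
  have h1 := (contDiffAt_tau Ψ ha).differentiableAt (by simp)
  have h2 := (contDiffAt_sig Ψ hu).differentiableAt (by simp)
  have h3 : HasFDerivAt (sig Ψ.symm a ∘ tau Ψ a) _ x :=
    HasFDerivAt.comp x h2.hasFDerivAt h1.hasFDerivAt
  have h4 : id =ᶠ[𝓝 x] sig Ψ.symm a ∘ tau Ψ a := by
    filter_upwards [eventually_tau Ψ ha] with y hy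
    exact (sig_tau Ψ hy).symm
  have h5 := (h3.congr_of_eventuallyEq h4).fderiv
  rw [fderiv_id] at h5
  exact (congrArg (fun L : E →L[ℝ] E => L v) h5).symm

theorem tau_injective {a : M} {x : E} (ha : Ψ x ∈ (chartAt E a).source) {v : E}
    (hv : fderiv ℝ (tau Ψ a) x v = 0) : v = 0 := by
  have := fderiv_sig_tau Ψ ha v
  rw [hv, map_zero] at this
  exact this.symm

theorem pb_sig (g : RMetric E M) {a : M} {u : E} (hu : u ∈ (chartAt E a).target) (v w : E) :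
    pb g Ψ (sig Ψ.symm a u) (fderiv ℝ (sig Ψ.symm a) u v) (fderiv ℝ (sig Ψ.symm a) u w) =
      coefL g a u v w := by
  rw [← pb_eq Ψ g (sig_mem Ψ hu), fderiv_tau_sig Ψ hu, fderiv_tau_sig Ψ hu, tau_sig Ψ hu]

theorem isMetricOn_coefL (g : RMetric E M) (a : M) :
    IsMetricOn (coefL g a) (chartAt E a).target :=
  (toMetric g).isMetricOn a

theorem isMetricOn_pb (g : RMetric E M) : IsMetricOn (pb g Ψ) univ where
  isOpen := isOpen_univ
  smooth := by
    intro x _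
    refine ContDiffAt.contDiffWithinAt ?_
    set a := Ψ x with ha'
    have ha : Ψ x ∈ (chartAt E a).source := mem_chart_source E _
    have hu : tau Ψ a x ∈ (chartAt E a).target := (chartAt E a).map_source ha
    have h1 : ContDiffAt ℝ ∞ (fun y => coefL g a (tau Ψ a y)) x :=
      ((isMetricOn_coefL g a).contDiffAt hu).comp x (contDiffAt_tau Ψ ha)
    have h2 : ContDiffAt ℝ ∞ (fderiv ℝ (tau Ψ a)) x :=
      (contDiffAt_tau Ψ ha).fderiv_right (m := ∞) (by simp)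
    have hf : ∀ f : E → E →L[ℝ] E →L[ℝ] ℝ, ContDiffAt ℝ ∞ f x →
        ContDiffAt ℝ ∞ (fun y => (f y).flip) x := fun f hf =>
      ((ContinuousLinearMap.flipₗᵢ ℝ E E ℝ).toContinuousLinearEquiv.contDiff.contDiffAt).comp
        x hf
    have h3 : ContDiffAt ℝ ∞ (fun y => ((((coefL g a (tau Ψ a y)).comp (fderiv ℝ (tau Ψ a) y)).flip).comp
        (fderiv ℝ (tau Ψ a) y)).flip) x :=
      hf _ ((hf _ (h1.clm_comp h2)).clm_comp h2)
    refine h3.congr_of_eventuallyEq ?_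
    filter_upwards [eventually_tau Ψ ha] with y hy
    ext v w
    rw [← pb_eq Ψ g hy]
    rfl
  symm := by
    intro x _ v w
    have ha : Ψ x ∈ (chartAt E (Ψ x)).source := mem_chart_source E _
    rw [← pb_eq Ψ g ha, ← pb_eq Ψ g ha]
    exact (isMetricOn_coefL g (Ψ x)).symm _ ((chartAt E (Ψ x)).map_source ha) _ _
  pos := by
    intro x _ v hv
    have ha : Ψ x ∈ (chartAt E (Ψ x)).source := mem_chart_source E _
    rw [← pb_eq Ψ g ha]
    exact (isMetricOn_coefL g (Ψ x)).pos _ ((chartAt E (Ψ x)).map_source ha) _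
      (fun h0 => hv (tau_injective Ψ ha h0))

end Gen

section Fin

variable {E : Type} [NormedAddCommGroup E] [NormedSpace ℝ E] [FiniteDimensional ℝ E]
variable {M : Type} [TopologicalSpace M] [ChartedSpace E M] [IsManifold 𝓘(ℝ, E) ∞ M]
variable (Ψ : E ≃ₘ^∞⟮𝓘(ℝ, E), 𝓘(ℝ, E)⟯ M)

theorem pb_curv (g : RMetric E M) {a : M} {x : E} (ha : Ψ x ∈ (chartAt E a).source) (u v w : E) :
    fderiv ℝ (tau Ψ a) x (curv (pb g Ψ) x u v w) =
      curv (coefL g a) (tau Ψ a x) (fderiv ℝ (tau Ψ a) x u) (fderiv ℝ (tau Ψ a) x v)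
        (fderiv ℝ (tau Ψ a) x w) := by
  refine curv_trans (isMetricOn_pb Ψ g) (isMetricOn_coefL g a) (mem_univ x) ?_ ?_ ?_ u v w
  · filter_upwards [eventually_tau Ψ ha] with y hy using (chartAt E a).map_source hy
  · filter_upwards [eventually_tau Ψ ha] with y hy using contDiffAt_tau Ψ hy
  · filter_upwards [eventually_tau Ψ ha] with y hy using pb_eq Ψ g hy

theorem riem_coefIn (g : RMetric E M) {a : M} {u : E} (hu : u ∈ (chartAt E a).target)
    (x y z : E) : Riem (coefIn g a) u x y z = curv (coefL g a) u x y z :=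
  riem_eq (isMetricOn_coefL g a) (fun u _ v w => rfl) hu x y z

theorem sec_pb (g : RMetric E M) {K : ℝ}
    (hK : ∀ a : M, ∀ u ∈ (chartAt E a).target, ∀ v w : E,
      coefIn g a u (Riem (coefIn g a) u v w w) v ≤
        K * (coefIn g a u v v * coefIn g a u w w - coefIn g a u v w ^ 2)) (x v w : E) :
    pb g Ψ x (curv (pb g Ψ) x v w w) v ≤
      K * (pb g Ψ x v v * pb g Ψ x w w - pb g Ψ x v w ^ 2) := by
  have ha : Ψ x ∈ (chartAt E (Ψ x)).source := mem_chart_source E _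
  have hu : tau Ψ (Ψ x) x ∈ (chartAt E (Ψ x)).target := (chartAt E (Ψ x)).map_source ha
  have h1 := hK (Ψ x) (tau Ψ (Ψ x) x) hu (fderiv ℝ (tau Ψ (Ψ x)) x v) (fderiv ℝ (tau Ψ (Ψ x)) x w)
  rw [riem_coefIn g hu, ← pb_curv Ψ g ha] at h1
  have e : ∀ p q : E, coefIn g (Ψ x) (tau Ψ (Ψ x) x) (fderiv ℝ (tau Ψ (Ψ x)) x p)
      (fderiv ℝ (tau Ψ (Ψ x)) x q) = pb g Ψ x p q := fun p q => pb_eq Ψ g ha p q
  simp only [e] at h1
  exact h1

theorem complete_pb (g : RMetric E M) (hc : Cpl (toMetric g)) (x v : E) :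
    ∃ c : ℝ → E, c 0 = x ∧ deriv c 0 = v ∧
    Differentiable ℝ c ∧ Differentiable ℝ (deriv c) ∧
    ∀ t, deriv (deriv c) t = - chris (pb g Ψ) (c t) (deriv c t) (deriv c t) := by
  obtain ⟨γ, hγ, h0, h1⟩ := hc (Ψ x) (fderiv ℝ (tau Ψ (Ψ x)) x v)
  have key : ∀ t, DifferentiableAt ℝ (fun s => Ψ.symm (γ s)) t ∧
      DifferentiableAt ℝ (deriv (fun s => Ψ.symm (γ s))) t ∧
      deriv (deriv (fun s => Ψ.symm (γ s))) t = - chris (pb g Ψ) (Ψ.symm (γ t))
        (deriv (fun s => Ψ.symm (γ s)) t) (deriv (fun s => Ψ.symm (γ s)) t) := by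
    intro t
    set a := γ t with had
    have ha : γ t ∈ (chartAt E a).source := mem_chart_source _ _
    have hu : cc (E := E) γ a t ∈ (chartAt E a).target := (chartAt E a).map_source ha
    have hs : ∀ᶠ s in 𝓝 t, γ s ∈ (chartAt E a).source :=
      (hγ.continuous.continuousAt).eventually ((chartAt E a).open_source.mem_nhds ha)
    have hd : ∀ᶠ s in 𝓝 t, DifferentiableAt ℝ (cc (E := E) γ a) s := by
      filter_upwards [hs] with s hs'
      exact (hγ.eqn a s (mem_univ _) hs').1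
    obtain ⟨e1, e2, e3⟩ := hγ.eqn a t (mem_univ _) ha
    obtain ⟨f1, f2, f3⟩ := (isMetricOn_coefL g a).geodesic_trans (isMetricOn_pb Ψ g) hu
      (mem_univ (sig Ψ.symm a (cc (E := E) γ a t))) (contDiffAt_sig Ψ hu)
      (by filter_upwards [(chartAt E a).open_target.mem_nhds hu] with y hy using pb_sig Ψ g hy)
      hd e2 e3
    have hcc : (fun s => Ψ.symm (γ s)) =ᶠ[𝓝 t] sig Ψ.symm a ∘ cc (E := E) γ a := by
      filter_upwards [hs] with s hs'
      simp only [Function.comp, sig, RG.cc]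
      rw [(chartAt E a).left_inv hs']
    have hcc' := hcc.deriv
    refine ⟨f1.congr_of_eventuallyEq hcc, f2.congr_of_eventuallyEq hcc', ?_⟩
    have e0 : Ψ.symm a = sig Ψ.symm a (cc (E := E) γ a t) := hcc.self_of_nhds
    rw [hcc'.deriv_eq, f3, hcc'.self_of_nhds, e0]
  refine ⟨fun s => Ψ.symm (γ s), ?_, ?_, fun t => (key t).1, fun t => (key t).2.1,
    fun t => (key t).2.2⟩
  · change Ψ.symm (γ 0) = x
    rw [h0]; exact Ψ.symm_apply_apply x
  · have ha : Ψ x ∈ (chartAt E (Ψ x)).source := mem_chart_source E _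
    have h2 : HasDerivAt (fun s => tau Ψ (Ψ x) (Ψ.symm (γ s)))
        (fderiv ℝ (tau Ψ (Ψ x)) x (deriv (fun s => Ψ.symm (γ s)) 0)) 0 := by
      have h3 := (key 0).1.hasDerivAt
      have h4 : HasFDerivAt (tau Ψ (Ψ x)) (fderiv ℝ (tau Ψ (Ψ x)) x) (Ψ.symm (γ 0)) := by
        have : Ψ.symm (γ 0) = x := by rw [h0]; exact Ψ.symm_apply_apply x
        rw [this]
        exact ((contDiffAt_tau Ψ ha).differentiableAt (by simp)).hasFDerivAt
      exact h4.comp_hasDerivAt 0 h3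
    have h5 : (fun s => tau Ψ (Ψ x) (Ψ.symm (γ s))) = cc γ (Ψ x) := by
      funext s
      simp only [tau, RG.cc]
      congr 1
      exact Ψ.apply_symm_apply _
    rw [h5] at h2
    have h6 := h2.deriv.symm.trans h1
    have h7 : fderiv ℝ (tau Ψ (Ψ x)) x (deriv (fun s => Ψ.symm (γ s)) 0 - v) = 0 := by
      rw [map_sub, h6, sub_self]
    exact sub_eq_zero.1 (tau_injective Ψ ha h7)

end Fin

section Mat

open Vale.Agent.P219.Co (E)

variable {n : ℕ} {M : Type} [TopologicalSpace M] [ChartedSpace (E n) M]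
  [IsManifold 𝓘(ℝ, E n) ∞ M]

theorem pull_smooth (g : RMetric (E n) M) (Ψ : E n ≃ₘ^∞⟮𝓘(ℝ, E n), 𝓘(ℝ, E n)⟯ M) (i j : Fin n) :
    Co.Smooth fun x => Matrix.of (fun i j : Fin n => g.inner (Ψ x)
      (mfderiv 𝓘(ℝ, E n) 𝓘(ℝ, E n) Ψ x (EuclideanSpace.single i 1 : E n))
      (mfderiv 𝓘(ℝ, E n) 𝓘(ℝ, E n) Ψ x (EuclideanSpace.single j 1 : E n))) i j :=
  (toRiem (pb g Ψ) (isMetricOn_pb Ψ g)).smooth i j

theorem pull_pos (g : RMetric (E n) M) (Ψ : E n ≃ₘ^∞⟮𝓘(ℝ, E n), 𝓘(ℝ, E n)⟯ M) (x : E n) :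
    (Matrix.of fun i j : Fin n => g.inner (Ψ x)
      (mfderiv 𝓘(ℝ, E n) 𝓘(ℝ, E n) Ψ x (EuclideanSpace.single i 1 : E n))
      (mfderiv 𝓘(ℝ, E n) 𝓘(ℝ, E n) Ψ x (EuclideanSpace.single j 1 : E n))).PosDef :=
  (toRiem (pb g Ψ) (isMetricOn_pb Ψ g)).pos x

end Mat

end Vale.Agent.P219.H381
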