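import Vale.Agent.P255.MathlibUsed

/-! Riemannian geometry in charts (copied from P255/Bdl/B1, the parts used here). -/

set_option linter.all false

section

section

/-!
# P255: Christoffel symbols, curvature and covariant derivative in coordinates
-/

open scoped Manifold ContDiff Topology
open Set

noncomputable section

namespace Vale.Agent.P219.RG

variable {E : Type} [NormedAddCommGroup E] [NormedSpace ℝ E]

/-- Christoffel symbols of a coefficient function `G`: `chris G u v w` is the vector with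
`G_u(chris, z) = 1/2 (D_v G (w,z) + D_w G (v,z) - D_z G (v,w))`. -/
def chris (G : E → E →L[ℝ] E →L[ℝ] ℝ) (u v w : E) : E :=
  (G u).inverse ((1 / 2 : ℝ) • (fderiv ℝ G u v w + fderiv ℝ G u w v
    - ((fderiv ℝ G u).flip v).flip w))

/-- Curvature tensor `R(x,y)z` in coordinates. -/
def curv (G : E → E →L[ℝ] E →L[ℝ] ℝ) (u x y z : E) : E :=
  fderiv ℝ (fun p => chris G p y z) u x - fderiv ℝ (fun p => chris G p x z) u y
    + chris G u x (chris G u y z) - chris G u y (chris G u x z)

/-- Covariant derivative, along the curve `c`, of the field `Y`. -/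
def covD (G : E → E →L[ℝ] E →L[ℝ] ℝ) (c Y : ℝ → E) (t : ℝ) : E :=
  deriv Y t + chris G (c t) (deriv c t) (Y t)


end Vale.Agent.P219.RG
end
end
end

section

section

/-!
# P255: basic definitions (metric, Christoffel symbols, curvature, geodesics, Jacobi fields)
All notions are written in the charts `chartAt E a` of a manifold modelled on a
normed space `E`.
-/

open scoped Manifold ContDiff Topology
open Set

noncomputable section

namespace Vale.Agent.P219.RG

section Mfd

variable (E : Type) [NormedAddCommGroup E] [NormedSpace ℝ E]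
variable (M : Type) [TopologicalSpace M] [ChartedSpace E M]

variable {M} in
/-- Coordinate change from the chart at `a` to the chart at `b`. -/
def trans (a b : M) (u : E) : E := chartAt E b ((chartAt E a).symm u)

/-- A Riemannian metric, given by its coefficients in all charts `chartAt E a`. -/
structure Metric where
  coef : M → E → E →L[ℝ] E →L[ℝ] ℝ
  smooth : ∀ a, ContDiffOn ℝ ∞ (coef a) (chartAt E a).target
  symm : ∀ a, ∀ u ∈ (chartAt E a).target, ∀ v w, coef a u v w = coef a u w v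
  pos : ∀ a, ∀ u ∈ (chartAt E a).target, ∀ v, v ≠ 0 → 0 < coef a u v v
  compat : ∀ a b, ∀ u ∈ (chartAt E a).target, (chartAt E a).symm u ∈ (chartAt E b).source →
    ∀ v w, coef b (trans E a b u) (fderiv ℝ (trans E a b) u v) (fderiv ℝ (trans E a b) u w)
      = coef a u v w

variable {E M}

/-- The curve `γ` read in the chart at `a`. -/
def cc (γ : ℝ → M) (a : M) (t : ℝ) : E := chartAt E a (γ t)

/-- `γ` is a geodesic on the set of times `s` (usually open). -/
structure IsGeodesicOn (g : Metric E M) (γ : ℝ → M) (s : Set ℝ) : Prop where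
  cont : ContinuousOn γ s
  eqn : ∀ a, ∀ t ∈ s, γ t ∈ (chartAt E a).source →
    DifferentiableAt ℝ (cc (E := E) γ a) t ∧
    DifferentiableAt ℝ (deriv (cc (E := E) γ a)) t ∧
    deriv (deriv (cc (E := E) γ a)) t =
      - chris (g.coef a) (cc γ a t) (deriv (cc γ a) t) (deriv (cc γ a) t)

/-- Geodesics, defined for all times. -/
def IsGeodesic (g : Metric E M) (γ : ℝ → M) : Prop := IsGeodesicOn g γ univ

/-- A vector field along `γ`, given by its components `J a t` in the charts containing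
`γ t`, satisfying the tensor transformation rule, and the Jacobi equation
`D_t D_t J + R(J, γ') γ' = 0`. -/
structure IsJacobi (g : Metric E M) (γ : ℝ → M) (J : M → ℝ → E) : Prop where
  compat : ∀ a b t, γ t ∈ (chartAt E a).source → γ t ∈ (chartAt E b).source →
    J b t = fderiv ℝ (trans E a b) (cc γ a t) (J a t)
  eqn : ∀ a t, γ t ∈ (chartAt E a).source →
    DifferentiableAt ℝ (J a) t ∧
    DifferentiableAt ℝ (covD (g.coef a) (cc γ a) (J a)) t ∧
    covD (g.coef a) (cc γ a) (covD (g.coef a) (cc γ a) (J a)) t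
      + curv (g.coef a) (cc γ a t) (J a t) (deriv (cc γ a) t) (deriv (cc γ a) t) = 0

/-- No conjugate points: a Jacobi field along a geodesic that vanishes at two distinct
times vanishes identically. -/
def NoConj (g : Metric E M) : Prop :=
  ∀ (γ : ℝ → M) (J : M → ℝ → E), IsGeodesic g γ → IsJacobi g γ J →
    ∀ t₁ t₂ : ℝ, t₁ ≠ t₂ → J (γ t₁) t₁ = 0 → J (γ t₂) t₂ = 0 →
    ∀ a t, γ t ∈ (chartAt E a).source → J a t = 0

/-- Nonpositive sectional curvature. -/
def Npc (g : Metric E M) : Prop :=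
  ∀ a, ∀ u ∈ (chartAt E a).target, ∀ v w, g.coef a u (curv (g.coef a) u v w w) v ≤ 0

/-- The inner product on `E` given by the metric at `m` (read in the chart at `m`). -/
def Metric.ip (g : Metric E M) (m : M) : E →L[ℝ] E →L[ℝ] ℝ :=
  g.coef m (chartAt E m m)

end Mfd

end Vale.Agent.P219.RG
end
end
end

section

section

/-!
# P255: metric coefficients in one chart: Christoffel symbols, metric compatibility,
skew-symmetry of the curvature, second derivative of `|J|²`
-/

open scoped Manifold ContDiff Topology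
open Set

set_option maxSynthPendingDepth 3

noncomputable section

namespace Vale.Agent.P219.RG

variable {E : Type} [NormedAddCommGroup E] [NormedSpace ℝ E]

/-- smooth metric coefficients on an open set -/
structure IsMetricOn (G : E → E →L[ℝ] E →L[ℝ] ℝ) (U : Set E) : Prop where
  isOpen : IsOpen U
  smooth : ContDiffOn ℝ ∞ G U
  symm : ∀ u ∈ U, ∀ v w, G u v w = G u w v
  pos : ∀ u ∈ U, ∀ v, v ≠ 0 → 0 < G u v v

namespace IsMetricOn

variable {G : E → E →L[ℝ] E →L[ℝ] ℝ} {U : Set E}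

theorem contDiffAt (h : IsMetricOn G U) {u : E} (hu : u ∈ U) : ContDiffAt ℝ ∞ G u :=
  h.smooth.contDiffAt (h.isOpen.mem_nhds hu)

theorem differentiableAt (h : IsMetricOn G U) {u : E} (hu : u ∈ U) : DifferentiableAt ℝ G u :=
  (h.contDiffAt hu).differentiableAt (by simp)

theorem contDiffAt_fderiv (h : IsMetricOn G U) {u : E} (hu : u ∈ U) :
    ContDiffAt ℝ ∞ (fderiv ℝ G) u :=
  (h.contDiffAt hu).fderiv_right (m := ∞) (by simp)

theorem nonneg (h : IsMetricOn G U) {u : E} (hu : u ∈ U) (v : E) : 0 ≤ G u v v := by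
  by_cases hv : v = 0
  · simp [hv]
  · exact (h.pos u hu v hv).le

theorem eq_zero (h : IsMetricOn G U) {u : E} (hu : u ∈ U) {v : E} (hv : G u v v = 0) : v = 0 := by
  by_contra h'
  exact (h.pos u hu v h').ne' hv

theorem fderiv_symm (h : IsMetricOn G U) {u : E} (hu : u ∈ U) (x v w : E) :
    fderiv ℝ G u x v w = fderiv ℝ G u x w v := by
  have h1 : HasFDerivAt (fun p => G p v w) ((fderiv ℝ G u).flip v |>.flip w) u := by
    have := ((h.differentiableAt hu).hasFDerivAt.clm_apply (hasFDerivAt_const v u)).clm_apply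
      (hasFDerivAt_const w u)
    refine this.congr_fderiv ?_
    ext z; simp
  have h2 : HasFDerivAt (fun p => G p w v) ((fderiv ℝ G u).flip w |>.flip v) u := by
    have := ((h.differentiableAt hu).hasFDerivAt.clm_apply (hasFDerivAt_const w u)).clm_apply
      (hasFDerivAt_const v u)
    refine this.congr_fderiv ?_
    ext z; simp
  have h3 : HasFDerivAt (fun p => G p v w) ((fderiv ℝ G u).flip w |>.flip v) u := by
    refine h2.congr_of_eventuallyEq ?_
    filter_upwards [h.isOpen.mem_nhds hu] with p hp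
    exact h.symm p hp v w
  have := congr_arg (fun L => L x) (h1.unique h3)
  simpa using this

variable [FiniteDimensional ℝ E]

theorem isInvertible (h : IsMetricOn G U) {u : E} (hu : u ∈ U) : (G u).IsInvertible := by
  have hinj : Function.Injective (G u) := by
    rw [injective_iff_map_eq_zero]
    intro v hv
    apply h.eq_zero hu
    rw [hv]; simp
  have hdim : Module.finrank ℝ E = Module.finrank ℝ (E →L[ℝ] ℝ) := by
    have h1 : Module.finrank ℝ (E →ₗ[ℝ] ℝ) = Module.finrank ℝ E := Subspace.dual_finrank_eq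
    rw [← h1]
    exact (LinearMap.toContinuousLinearMap (𝕜 := ℝ) (E := E) (F' := ℝ)).finrank_eq
  let e : E ≃ₗ[ℝ] (E →L[ℝ] ℝ) :=
    LinearMap.linearEquivOfInjective (G u : E →ₗ[ℝ] (E →L[ℝ] ℝ)) hinj hdim
  refine ⟨e.toContinuousLinearEquiv, ?_⟩
  ext v w
  rfl

theorem chris_spec (h : IsMetricOn G U) {u : E} (hu : u ∈ U) (v w z : E) :
    G u (chris G u v w) z =
      (fderiv ℝ G u v w z + fderiv ℝ G u w v z - fderiv ℝ G u z v w) / 2 := by
  unfold chris
  rw [(h.isInvertible hu).self_apply_inverse]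
  simp
  ring

omit [FiniteDimensional ℝ E] in
theorem ext_of (h : IsMetricOn G U) {u : E} (hu : u ∈ U) {v w : E}
    (hvw : ∀ z, G u v z = G u w z) : v = w := by
  have : G u (v - w) (v - w) = 0 := by
    rw [map_sub]; simp [hvw]
  exact sub_eq_zero.1 (h.eq_zero hu this)

theorem chris_symm (h : IsMetricOn G U) {u : E} (hu : u ∈ U) (v w : E) :
    chris G u v w = chris G u w v := by
  apply h.ext_of hu
  intro z
  rw [h.chris_spec hu, h.chris_spec hu, h.fderiv_symm hu z v w]
  ring

theorem chris_compat (h : IsMetricOn G U) {u : E} (hu : u ∈ U) (x v w : E) :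
    fderiv ℝ G u x v w = G u (chris G u x v) w + G u v (chris G u x w) := by
  rw [h.symm u hu v, h.chris_spec hu, h.chris_spec hu, h.fderiv_symm hu w x v,
    h.fderiv_symm hu v x w, h.fderiv_symm hu x w v]
  ring

end IsMetricOn


/-- Christoffel symbols as a bilinear map -/
def chrisB (G : E → E →L[ℝ] E →L[ℝ] ℝ) (u : E) : E →L[ℝ] E →L[ℝ] E :=
  (ContinuousLinearMap.compL ℝ E (E →L[ℝ] ℝ) E (G u).inverse) ∘L
    ((1 / 2 : ℝ) • (fderiv ℝ G u + (fderiv ℝ G u).flip
      - (ContinuousLinearMap.flipₗᵢ ℝ E E ℝ).toContinuousLinearEquiv.toContinuousLinearMap ∘L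
        (fderiv ℝ G u).flip))

theorem chrisB_apply (G : E → E →L[ℝ] E →L[ℝ] ℝ) (u v w : E) :
    chrisB G u v w = chris G u v w := by
  simp only [chrisB, chris, ContinuousLinearMap.coe_comp, Function.comp_apply,
    ContinuousLinearMap.compL_apply]
  congr 1

namespace IsMetricOn

variable [FiniteDimensional ℝ E] {G : E → E →L[ℝ] E →L[ℝ] ℝ} {U : Set E}

theorem contDiffAt_chrisB (h : IsMetricOn G U) {u : E} (hu : u ∈ U) :
    ContDiffAt ℝ ∞ (chrisB G) u := by
  unfold chrisB
  have hi : ContDiffAt ℝ ∞ (fun u => (G u).inverse) u :=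
    ((h.isInvertible hu).contDiffAt_map_inverse).comp u (h.contDiffAt hu)
  have hd := h.contDiffAt_fderiv hu
  have hf : ContDiffAt ℝ ∞ (fun u => (fderiv ℝ G u).flip) u :=
    ((ContinuousLinearMap.flipₗᵢ ℝ E E (E →L[ℝ] ℝ)).toContinuousLinearEquiv.contDiff.contDiffAt).comp
      u hd
  refine ContDiffAt.clm_comp ?_ ?_
  · exact (ContinuousLinearMap.compL ℝ E (E →L[ℝ] ℝ) E).contDiff.contDiffAt.comp u hi
  · exact ((hd.add hf).sub (contDiffAt_const.clm_comp hf)).const_smul (1 / 2 : ℝ)

theorem contDiffAt_chris (h : IsMetricOn G U) {u : E} (hu : u ∈ U) (v w : E) :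
    ContDiffAt ℝ ∞ (fun p => chris G p v w) u := by
  simp_rw [← chrisB_apply]
  exact ((h.contDiffAt_chrisB hu).clm_apply contDiffAt_const).clm_apply contDiffAt_const

theorem differentiableAt_chrisB (h : IsMetricOn G U) {u : E} (hu : u ∈ U) :
    DifferentiableAt ℝ (chrisB G) u :=
  (h.contDiffAt_chrisB hu).differentiableAt (by simp)

theorem fderiv_chris (h : IsMetricOn G U) {u : E} (hu : u ∈ U) (v w x : E) :
    fderiv ℝ (fun p => chris G p v w) u x = fderiv ℝ (chrisB G) u x v w := by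
  simp_rw [← chrisB_apply]
  have h1 := (((h.differentiableAt_chrisB hu).hasFDerivAt.clm_apply
    (hasFDerivAt_const v u)).clm_apply (hasFDerivAt_const w u)).fderiv
  rw [h1]
  simp

theorem curv_eq (h : IsMetricOn G U) {u : E} (hu : u ∈ U) (x y z : E) :
    curv G u x y z = fderiv ℝ (chrisB G) u x y z - fderiv ℝ (chrisB G) u y x z
      + chrisB G u x (chrisB G u y z) - chrisB G u y (chrisB G u x z) := by
  unfold curv
  rw [h.fderiv_chris hu, h.fderiv_chris hu]
  simp only [chrisB_apply]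

/-- the curvature is skew-symmetric in its last two arguments -/
theorem curv_skew (h : IsMetricOn G U) {u : E} (hu : u ∈ U) (x y z : E) :
    G u (curv G u x y z) z = 0 := by
  -- first derivative of `p ↦ G p z z`
  have h1 : ∀ p ∈ U, ∀ a, fderiv ℝ (fun q => G q z z) p a = 2 * G p (chrisB G p a z) z := by
    intro p hp a
    have := (((h.differentiableAt hp).hasFDerivAt.clm_apply
      (hasFDerivAt_const z p)).clm_apply (hasFDerivAt_const z p)).fderiv
    rw [this]
    simp only [add_apply, ContinuousLinearMap.flip_apply]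
    simp only [ContinuousLinearMap.comp_apply, zero_apply, map_zero,
      zero_add, add_apply, ContinuousLinearMap.flip_apply]
    rw [h.chris_compat hp, h.symm p hp z, ← chrisB_apply]
    ring
  have hsm : ContDiffAt ℝ 2 (fun q => G q z z) u :=
    (((h.contDiffAt hu).clm_apply contDiffAt_const).clm_apply contDiffAt_const).of_le
      (by norm_cast)
  have hsym : ∀ a b, fderiv ℝ (fun p => fderiv ℝ (fun q => G q z z) p a) u b =
      fderiv ℝ (fun p => fderiv ℝ (fun q => G q z z) p b) u a := by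
    intro a b
    have hs := hsm.isSymmSndFDerivAt (by simp)
    have hd : DifferentiableAt ℝ (fderiv ℝ (fun q => G q z z)) u :=
      (hsm.fderiv_right (m := 1) (by norm_num)).differentiableAt (by simp)
    have e1 : ∀ c d, fderiv ℝ (fun p => fderiv ℝ (fun q => G q z z) p c) u d =
        fderiv ℝ (fderiv ℝ (fun q => G q z z)) u d c := by
      intro c d
      rw [(hd.hasFDerivAt.clm_apply (hasFDerivAt_const c u)).fderiv]
      simp
    rw [e1, e1]
    exact hs b a
  have hval : ∀ a b, fderiv ℝ (fun p => fderiv ℝ (fun q => G q z z) p a) u b =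
      2 * (G u (chrisB G u b (chrisB G u a z)) z + G u (chrisB G u a z) (chrisB G u b z)
        + G u (fderiv ℝ (chrisB G) u b a z) z) := by
    intro a b
    have e1 : (fun p => fderiv ℝ (fun q => G q z z) p a) =ᶠ[𝓝 u]
        fun p => 2 * G p (chrisB G p a z) z := by
      filter_upwards [h.isOpen.mem_nhds hu] with p hp
      exact h1 p hp a
    rw [e1.fderiv_eq]
    have e2 := (((h.differentiableAt_chrisB hu).hasFDerivAt.clm_apply
      (hasFDerivAt_const a u)).clm_apply (hasFDerivAt_const z u))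
    have e3 := (((h.differentiableAt hu).hasFDerivAt.clm_apply e2).clm_apply
      (hasFDerivAt_const z u)).const_mul 2
    rw [e3.fderiv]
    simp only [add_apply, ContinuousLinearMap.flip_apply,
      ContinuousLinearMap.comp_apply, zero_apply, map_zero,
      zero_add, smul_apply, smul_eq_mul]
    rw [h.chris_compat hu]
    simp only [chrisB_apply]
    ring
  have := hsym x y
  rw [hval, hval] at this
  rw [h.curv_eq hu]
  simp only [map_sub, map_add, sub_apply, add_apply]
  rw [h.symm u hu (chrisB G u x z)] at this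
  linarith

/-- metric compatibility along a curve -/
theorem hasDerivAt_inner (h : IsMetricOn G U) {c X Y : ℝ → E} {t : ℝ} (ht : c t ∈ U)
    (hc : DifferentiableAt ℝ c t) (hX : DifferentiableAt ℝ X t) (hY : DifferentiableAt ℝ Y t) :
    HasDerivAt (fun s => G (c s) (X s) (Y s))
      (G (c t) (covD G c X t) (Y t) + G (c t) (X t) (covD G c Y t)) t := by
  have h1 : HasDerivAt (fun s => G (c s)) (fderiv ℝ G (c t) (deriv c t)) t :=
    (h.differentiableAt ht).hasFDerivAt.comp_hasDerivAt t hc.hasDerivAt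
  have h2 := (h1.clm_apply hX.hasDerivAt).clm_apply hY.hasDerivAt
  refine h2.congr_deriv ?_
  simp only [covD, add_apply, map_add]
  rw [h.chris_compat ht]
  ring

end IsMetricOn

end Vale.Agent.P219.RG
end
end
end

section

section

/-!
# P255: the structure `IsExp` (exponential maps of a closed manifold)
-/

open scoped Manifold ContDiff Topology
open Set

noncomputable section

namespace Vale.Agent.P219.RG

variable {E : Type} [NormedAddCommGroup E] [NormedSpace ℝ E]
variable {M : Type} [TopologicalSpace M] [ChartedSpace E M]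

/-- everything about the exponential map that is used later -/
structure IsExp (g : Metric E M) (e : M → E → M) : Prop where
  zero : ∀ m, e m 0 = m
  cont : ∀ m, Continuous (e m)
  geod : ∀ m v, IsGeodesic g (fun t => e m (t • v))
  init : ∀ m v, HasDerivAt (fun t : ℝ => chartAt E m (e m (t • v))) v 0
  uniq : ∀ γ, IsGeodesic g γ → ∀ t, γ t = e (γ 0) (t • deriv (cc (E := E) γ (γ 0)) 0)
  smooth : ∀ m v a, e m v ∈ (chartAt E a).source →
    ContDiffAt ℝ 1 (fun w => chartAt E a (e m w)) v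
  jac : ∀ m v w, IsJacobi g (fun t => e m (t • v))
    (fun a t => fderiv ℝ (fun x => chartAt E a (e m x)) (t • v) (t • w))
  jac_init : ∀ m v w, HasDerivAt
    (fun t : ℝ => fderiv ℝ (fun x => chartAt E m (e m x)) (t • v) (t • w)) w 0

end Vale.Agent.P219.RG
end
end
end

section

section

/-!
# P255: a local homeomorphism with path lifting along contractions of small open sets is a
covering map
-/

open Topology Set unitInterval

namespace Vale.Agent.P219.RG

variable {E X : Type*} [TopologicalSpace E] [TopologicalSpace X] {p : E → X}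

/-- the path `γ` lifts from every point above its starting point -/
def Lifts (p : E → X) (γ : I → X) : Prop :=
  ∀ e, p e = γ 0 → ∃ Γ : I → E, Continuous Γ ∧ (∀ t, p (Γ t) = γ t) ∧ Γ 0 = e

theorem isEvenlyCovered_of_lifts (hp : IsLocalHomeomorph p) (sep : IsSeparatedMap p)
    (x₀ : X) (U : Set X) (hU : IsOpen U) (hx₀ : x₀ ∈ U) (H : I × U → X) (hH : Continuous H)
    (HU : ∀ q, H q ∈ U)
    (H0 : ∀ u, H (0, u) = x₀) (H1 : ∀ u, H (1, u) = u)
    (lift : ∀ u : U, Lifts p (fun s => H (s, u)))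
    (lift' : ∀ u : U, Lifts p (fun s => H (σ s, u))) :
    IsEvenlyCovered p x₀ (p ⁻¹' {x₀}) := by
  classical
  have hdisc : DiscreteTopology (p ⁻¹' {x₀}) := by
    have h1 : IsLocalHomeomorphOn p (p ⁻¹' {x₀}) := hp.isLocalHomeomorphOn.mono (subset_univ _)
    have : DiscreteTopology (p '' (p ⁻¹' {x₀})) := by
      have : Subsingleton (p '' (p ⁻¹' {x₀})) := by
        constructor
        rintro ⟨_, a, ha, rfl⟩ ⟨_, b, hb, rfl⟩
        apply Subtype.ext
        simp only [mem_preimage, mem_singleton_iff] at ha hb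
        simp [ha, hb]
      infer_instance
    exact h1.discreteTopology_of_image
  have hpc : Continuous p := hp.continuous
  -- forward lifts
  have hF : ∀ q : U × (p ⁻¹' {x₀}), ∃ Γ : I → E, Continuous Γ ∧ (∀ t, p (Γ t) = H (t, q.1)) ∧
      Γ 0 = q.2 := fun q => lift q.1 q.2 (by have := q.2.2; simp only [mem_preimage, mem_singleton_iff] at this; simp only [H0, this])
  choose F Fc Fl F0 using hF
  have hG : ∀ y : p ⁻¹' U, ∃ Γ : I → E, Continuous Γ ∧ (∀ t, p (Γ t) = H (σ t, ⟨p y, y.2⟩)) ∧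
      Γ 0 = y := fun y => lift' ⟨p y, y.2⟩ y (by simp [H1])
  choose G Gc Gl G0 using hG
  -- joint continuity
  have hFc : Continuous (fun q : I × (U × (p ⁻¹' {x₀})) => F q.2 q.1) := by
    refine hp.continuous_lift sep (f := ⟨fun q : I × (U × (p ⁻¹' {x₀})) => H (q.1, q.2.1), by
      fun_prop⟩) (by ext q; exact Fl q.2 q.1) ?_ (fun a => Fc a)
    simp only [F0]
    fun_prop
  have hGc : Continuous (fun q : I × (p ⁻¹' U) => G q.2 q.1) := by
    refine hp.continuous_lift sep (f := ⟨fun q : I × (p ⁻¹' U) =>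
      H (σ q.1, ⟨p q.2, q.2.2⟩), by fun_prop⟩) (by ext q; exact Gl q.2 q.1) ?_ (fun a => Gc a)
    simp only [G0]
    fun_prop
  have uniq : ∀ {g₁ g₂ : I → E}, Continuous g₁ → Continuous g₂ → (∀ t, p (g₁ t) = p (g₂ t)) →
      ∀ t₀, g₁ t₀ = g₂ t₀ → ∀ t, g₁ t = g₂ t := by
    intro g₁ g₂ h₁ h₂ h t₀ ht₀ t
    exact congr_fun (sep.eq_of_comp_eq hp.isLocallyInjective h₁ h₂ (funext h) t₀ ht₀) t
  refine ⟨hdisc, U, hx₀, hU, hU.preimage hpc, ?_⟩
  let toF : p ⁻¹' U → U × (p ⁻¹' {x₀}) := fun y =>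
    (⟨p y, y.2⟩, ⟨G y 1, by
      simp only [mem_preimage, mem_singleton_iff, Gl, symm_one, H0]⟩)
  let inF : U × (p ⁻¹' {x₀}) → p ⁻¹' U := fun q =>
    ⟨F q 1, by simp only [mem_preimage, Fl, H1]; exact q.1.2⟩
  have hl : ∀ y, inF (toF y) = y := by
    intro y
    apply Subtype.ext
    change F (toF y) 1 = y
    have h1 := uniq (Fc (toF y)) ((Gc y).comp continuous_symm) (by
      intro t
      rw [Fl]
      simp only [Function.comp_apply, Gl, symm_symm]
      rfl) 0 (by
      simp only [Function.comp_apply, symm_zero, F0, toF]) 1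
    rw [h1]
    simp [G0]
  have hr : ∀ q, toF (inF q) = q := by
    intro q
    have hb : (⟨p (inF q), (inF q).2⟩ : U) = q.1 := by
      apply Subtype.ext
      change p (F q 1) = q.1
      rw [Fl, H1]
    refine Prod.ext hb (Subtype.ext ?_)
    change G (inF q) 1 = q.2
    have h1 := uniq (Gc (inF q)) ((Fc q).comp continuous_symm) (by
      intro t
      rw [Gl]
      simp only [Function.comp_apply, Fl, hb]) 0 (by
      simp only [Function.comp_apply, symm_zero, G0, inF]) 1
    rw [h1]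
    simp [F0]
  refine ⟨{ toFun := toF, invFun := inF, left_inv := hl, right_inv := hr,
            continuous_toFun := ?_, continuous_invFun := ?_ }, fun y => rfl⟩
  · refine Continuous.prodMk (by fun_prop) (Continuous.subtype_mk ?_ _)
    exact hGc.comp (Continuous.prodMk continuous_const continuous_id)
  · refine Continuous.subtype_mk ?_ _
    exact hFc.comp (Continuous.prodMk continuous_const continuous_id)

theorem isCoveringMap_of_lifts (hp : IsLocalHomeomorph p) (sep : IsSeparatedMap p)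
    (h : ∀ x₀ : X, ∃ U : Set X, IsOpen U ∧ x₀ ∈ U ∧ ∃ H : I × U → X, Continuous H ∧
      (∀ q, H q ∈ U) ∧ (∀ u, H (0, u) = x₀) ∧ (∀ u, H (1, u) = u) ∧
      (∀ u : U, Lifts p (fun s => H (s, u))) ∧ (∀ u : U, Lifts p (fun s => H (σ s, u)))) :
    IsCoveringMap p := by
  intro x₀
  obtain ⟨U, hU, hx₀, H, hH, HU, H0, H1, l1, l2⟩ := h x₀
  exact isEvenlyCovered_of_lifts hp sep x₀ U hU hx₀ H hH HU H0 H1 l1 l2

end Vale.Agent.P219.RG
end
end

section

section

/-!
# P255: lifting a path through a local homeomorphism when all partial lifts stay in a compact set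
-/

open Topology Set Filter

namespace Vale.Agent.P219.RG

variable {E X : Type*} [TopologicalSpace E] [TopologicalSpace X] {p : E → X} {γ : ℝ → X} {e : E}

/-- `Γ` lifts `γ` on `[0,T]`, starting at `e`. -/
def IsLiftOn (p : E → X) (γ : ℝ → X) (e : E) (T : ℝ) (Γ : ℝ → E) : Prop :=
  ContinuousOn Γ (Icc 0 T) ∧ (∀ t ∈ Icc 0 T, p (Γ t) = γ t) ∧ Γ 0 = e

omit [TopologicalSpace X] in
theorem IsLiftOn.mono {T T' : ℝ} {Γ : ℝ → E} (h : IsLiftOn p γ e T Γ) (hT : T' ≤ T) :
    IsLiftOn p γ e T' Γ :=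
  ⟨h.1.mono (Icc_subset_Icc_right hT), fun t ht => h.2.1 t (Icc_subset_Icc_right hT ht), h.2.2⟩

theorem IsLiftOn.extend (q : OpenPartialHomeomorph E X) (hq : p = q) {s T : ℝ} (h0 : 0 ≤ s)
    (hsT : s ≤ T) {Γ : ℝ → E} (hΓ : IsLiftOn p γ e s Γ) (hV : Γ s ∈ q.source)
    (hW : ∀ t ∈ Icc s T, γ t ∈ q.target) (hγ : ContinuousOn γ (Icc s T)) :
    ∃ Γ', IsLiftOn p γ e T Γ' := by
  have hs : γ s = q (Γ s) := by rw [← hΓ.2.1 s ⟨h0, le_rfl⟩, hq]
  have hs' : q.symm (γ s) = Γ s := by rw [hs, q.left_inv hV]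
  refine ⟨fun t => if t ≤ s then Γ t else q.symm (γ t), ?_, ?_, ?_⟩
  · have h1 : ContinuousOn (fun t => if t ≤ s then Γ t else q.symm (γ t)) (Icc 0 s) :=
      hΓ.1.congr (fun t ht => by simp [ht.2])
    have h2 : ContinuousOn (fun t => if t ≤ s then Γ t else q.symm (γ t)) (Icc s T) := by
      refine (q.continuousOn_symm.comp hγ (fun t ht => hW t ht)).congr (fun t ht => ?_)
      by_cases h : t ≤ s
      · have : t = s := le_antisymm h ht.1
        subst this
        simp [hs']
      · simp [h]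
    have h3 := h1.union_of_isClosed h2 isClosed_Icc isClosed_Icc
    rwa [Icc_union_Icc_eq_Icc h0 hsT] at h3
  · intro t ht
    by_cases h : t ≤ s
    · simp only [h, if_true]
      exact hΓ.2.1 t ⟨ht.1, h⟩
    · simp only [h, if_false]
      rw [hq]
      exact q.right_inv (hW t ⟨(not_le.1 h).le, ht.2⟩)
  · simp [h0, hΓ.2.2]

theorem exists_lift [T2Space X] (hp : IsLocalHomeomorph p) (hγ : ContinuousOn γ (Icc 0 1))
    (he : p e = γ 0) {K : Set E} (hK : IsCompact K)
    (hb : ∀ T ∈ Icc (0 : ℝ) 1, ∀ Γ, IsLiftOn p γ e T Γ → ∀ t ∈ Icc 0 T, Γ t ∈ K) :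
    ∃ Γ, IsLiftOn p γ e 1 Γ := by
  set S : Set ℝ := {T | ∃ Γ, IsLiftOn p γ e T Γ} with hS
  have h0 : (0 : ℝ) ∈ S := by
    refine ⟨fun _ => e, continuousOn_const, fun t ht => ?_, rfl⟩
    have : t = 0 := le_antisymm ht.2 ht.1
    rw [this, he]
  have hclosed : IsClosed (S ∩ Icc 0 1) := by
    rw [isClosed_iff_frequently]
    intro T hT
    have hT01 : T ∈ Icc (0 : ℝ) 1 := by
      have : ∃ᶠ y in 𝓝 T, y ∈ Icc (0 : ℝ) 1 := hT.mono (fun y hy => hy.2)
      exact isClosed_iff_frequently.1 isClosed_Icc T this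
    refine ⟨?_, hT01⟩
    -- endpoints
    have : Nonempty E := ⟨e⟩
    choose! Γ hΓ using (fun T (h : T ∈ S) => h)
    have hne : (𝓝[S ∩ Icc 0 1] T).NeBot := by
      rw [← mem_closure_iff_nhdsWithin_neBot, mem_closure_iff_frequently]
      exact hT
    have hmem : ∀ᶠ s in 𝓝[S ∩ Icc 0 1] T, Γ s s ∈ K := by
      filter_upwards [self_mem_nhdsWithin] with s hs
      exact hb s hs.2 (Γ s) (hΓ s hs.1) s ⟨hs.2.1, le_rfl⟩
    obtain ⟨v, hvK, hv⟩ := hK.exists_clusterPt (f := map (fun s => Γ s s) (𝓝[S ∩ Icc 0 1] T))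
      (le_principal_iff.2 (mem_map.2 hmem))
    have hpv : p v = γ T := by
      have h1 : ClusterPt (p v) (map p (map (fun s => Γ s s) (𝓝[S ∩ Icc 0 1] T))) :=
        hv.map hp.continuous.continuousAt tendsto_map
      have h2 : Tendsto (fun s => p (Γ s s)) (𝓝[S ∩ Icc 0 1] T) (𝓝 (γ T)) := by
        have h3 : Tendsto γ (𝓝[S ∩ Icc 0 1] T) (𝓝 (γ T)) :=
          (hγ T hT01).mono_left (nhdsWithin_mono _ inter_subset_right)
        refine h3.congr' ?_
        filter_upwards [self_mem_nhdsWithin] with s hs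
        exact ((hΓ s hs.1).2.1 s ⟨hs.2.1, le_rfl⟩).symm
      rw [map_map] at h1
      have h4 : ClusterPt (p v) (𝓝 (γ T)) := h1.mono h2
      exact eq_of_nhds_neBot h4
    obtain ⟨q, hvq, hq⟩ := hp v
    have hW : q.target ∈ 𝓝 (γ T) := by
      rw [← hpv, hq]
      exact q.open_target.mem_nhds (q.map_source hvq)
    have hγT : ∀ᶠ s in 𝓝[Icc 0 1] T, γ s ∈ q.target := (hγ T hT01) hW
    obtain ⟨ε, hε, hεW⟩ := Metric.mem_nhdsWithin_iff.1 hγT
    have hfr : ∃ᶠ s in 𝓝[S ∩ Icc 0 1] T, Γ s s ∈ q.source := by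
      have := hv.frequently (q.open_source.mem_nhds hvq)
      exact this
    have hev1 : ∀ᶠ s in 𝓝[S ∩ Icc 0 1] T, s ∈ S ∩ Icc 0 1 := self_mem_nhdsWithin
    have hev2 : ∀ᶠ s in 𝓝[S ∩ Icc 0 1] T, s ∈ Metric.ball T ε :=
      nhdsWithin_le_nhds (Metric.ball_mem_nhds T hε)
    obtain ⟨s, hs1, hs2, hs3⟩ := (hfr.and_eventually (hev1.and hev2)).exists
    rcases le_or_gt T s with h | h
    · exact ⟨Γ s, (hΓ s hs2.1).mono h⟩
    · refine (hΓ s hs2.1).extend q hq hs2.2.1 h.le hs1 (fun t ht => hεW ⟨?_, ?_⟩)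
        (hγ.mono (Icc_subset_Icc hs2.2.1 hT01.2))
      · rw [Metric.mem_ball, Real.dist_eq, abs_lt] at hs3 ⊢
        constructor <;> linarith [ht.1, ht.2, hs3.1]
      · exact ⟨hs2.2.1.trans ht.1, ht.2.trans hT01.2⟩
  have hmain : Icc (0 : ℝ) 1 ⊆ S := by
    refine hclosed.Icc_subset_of_forall_mem_nhdsWithin h0 ?_
    rintro T ⟨⟨Γ, hΓ⟩, hT0, hT1⟩
    obtain ⟨q, hvq, hq⟩ := hp (Γ T)
    have hW : q.target ∈ 𝓝 (γ T) := by
      rw [← hΓ.2.1 T ⟨hT0, le_rfl⟩, hq]
      exact q.open_target.mem_nhds (q.map_source hvq)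
    have hγT : ∀ᶠ s in 𝓝[Icc 0 1] T, γ s ∈ q.target := (hγ T ⟨hT0, hT1.le⟩) hW
    obtain ⟨ε, hε, hεW⟩ := Metric.mem_nhdsWithin_iff.1 hγT
    have : Ioo T (min (T + ε) 1) ∈ 𝓝[>] T := Ioo_mem_nhdsGT (by simp [hε, hT1])
    filter_upwards [this] with s hs
    refine hΓ.extend q hq hT0 hs.1.le hvq (fun t ht => hεW ⟨?_, ?_⟩)
        (hγ.mono (Icc_subset_Icc hT0 (hs.2.le.trans (min_le_right _ _))))
    · rw [Metric.mem_ball, Real.dist_eq, abs_lt]
      have := hs.2.trans_le (min_le_left _ _)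
      constructor <;> linarith [ht.1, ht.2]
    · exact ⟨hT0.trans ht.1, ht.2.trans (hs.2.le.trans (min_le_right _ _))⟩
  exact hmain ⟨zero_le_one, le_rfl⟩

end Vale.Agent.P219.RG
end
end

section

section

/-!
# P255: the exponential map is a covering map (under the Gauss lemma and the absence of
conjugate points), shifts of geodesics, comparison
-/

open scoped Manifold ContDiff Topology unitInterval
open Set Filter

noncomputable section

namespace Vale.Agent.P219.RG

section Basic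

variable {E : Type} [NormedAddCommGroup E] [NormedSpace ℝ E]

/-- Cauchy-Schwarz for nonnegative symmetric bilinear forms -/
theorem cs_form (B : E →L[ℝ] E →L[ℝ] ℝ) (hs : ∀ v w, B v w = B w v) (hn : ∀ v, 0 ≤ B v v)
    (v w : E) : B v w ≤ Real.sqrt (B v v) * Real.sqrt (B w w) := by
  have h : ∀ t : ℝ, 0 ≤ B v v * (t * t) + 2 * B v w * t + B w w := by
    intro t
    have h1 := hn (t • v + w)
    simp only [map_add, map_smul, add_apply, smul_apply, smul_eq_mul] at h1
    rw [hs w v] at h1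
    linarith
  have h2 := discrim_le_zero h
  rw [discrim] at h2
  have h3 : B v w ^ 2 ≤ (Real.sqrt (B v v) * Real.sqrt (B w w)) ^ 2 := by
    rw [mul_pow, Real.sq_sqrt (hn v), Real.sq_sqrt (hn w)]; linarith
  exact (abs_le_of_sq_le_sq' h3 (by (clear * -; positivity))).2

theorem nonneg_of_pos {B : E →L[ℝ] E →L[ℝ] ℝ} (hp : ∀ v, v ≠ 0 → 0 < B v v) (v : E) :
    0 ≤ B v v := by
  rcases eq_or_ne v 0 with rfl | h
  · simp
  · exact (hp v h).le

/-- balls of a positive definite form are compact -/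
theorem isCompact_form [FiniteDimensional ℝ E] (B : E →L[ℝ] E →L[ℝ] ℝ)
    (hp : ∀ v, v ≠ 0 → 0 < B v v) (R : ℝ) : IsCompact {v : E | B v v ≤ R} := by
  have hcont : Continuous fun v : E => B v v := by continuity
  obtain ⟨c, hc, hc2⟩ : ∃ c : ℝ, 0 < c ∧ ∀ v : E, c * ‖v‖ ^ 2 ≤ B v v := by
    rcases (Metric.sphere (0 : E) 1).eq_empty_or_nonempty with h | h
    · refine ⟨1, one_pos, fun v => ?_⟩
      have hv : v = 0 := by
        by_contra hv
        have : (‖v‖⁻¹ • v) ∈ Metric.sphere (0 : E) 1 := by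
          simp [norm_smul, inv_mul_cancel₀ (norm_ne_zero_iff.2 hv)]
        rw [h] at this
        exact this
      simp [hv]
    · obtain ⟨v₀, hv₀, hmin⟩ := (isCompact_sphere (0 : E) 1).exists_isMinOn h
        hcont.continuousOn
      have hv₀0 : v₀ ≠ 0 := by
        rintro rfl
        simp at hv₀
      refine ⟨B v₀ v₀, hp v₀ hv₀0, fun v => ?_⟩
      rcases eq_or_ne v 0 with rfl | hv
      · simp
      · have hn : 0 < ‖v‖ := norm_pos_iff.2 hv
        have hmem : (‖v‖⁻¹ • v) ∈ Metric.sphere (0 : E) 1 := by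
          simp [norm_smul, inv_mul_cancel₀ hn.ne']
        have h1 : B v₀ v₀ ≤ B (‖v‖⁻¹ • v) (‖v‖⁻¹ • v) := hmin hmem
        simp only [map_smul, smul_apply, smul_eq_mul] at h1
        have h2 : ‖v‖⁻¹ * (‖v‖⁻¹ * B v v) * ‖v‖ ^ 2 = B v v := by
          field_simp
        calc B v₀ v₀ * ‖v‖ ^ 2
            ≤ ‖v‖⁻¹ * (‖v‖⁻¹ * B v v) * ‖v‖ ^ 2 :=
              mul_le_mul_of_nonneg_right h1 (by positivity)
          _ = B v v := h2
  apply Metric.isCompact_of_isClosed_isBounded
  · exact isClosed_le hcont continuous_const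
  · rw [Metric.isBounded_iff_subset_closedBall 0]
    refine ⟨Real.sqrt (R / c), fun v hv => ?_⟩
    rw [mem_closedBall_zero_iff]
    apply Real.le_sqrt_of_sq_le
    rw [le_div_iff₀ hc]
    have h1 := hc2 v
    have h2 : B v v ≤ R := hv
    linarith

/-- derivative of a local lift through a map with injective derivative -/
theorem hasDerivAt_lift [FiniteDimensional ℝ E] {F : E → E} {c x : ℝ → E} {t : ℝ} {w : E}
    (hF : ContDiffAt ℝ 1 F (c t)) (hinj : ∀ z, fderiv ℝ F (c t) z = 0 → z = 0)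
    (hc : ContinuousAt c t) (hx : ∀ᶠ s in 𝓝 t, F (c s) = x s) (hxd : HasDerivAt x w t) :
    ∃ c' : E, HasDerivAt c c' t ∧ fderiv ℝ F (c t) c' = w := by
  have hinj' : Function.Injective (fderiv ℝ F (c t) : E →ₗ[ℝ] E) := by
    rw [← LinearMap.ker_eq_bot, LinearMap.ker_eq_bot']
    exact hinj
  let L : E ≃L[ℝ] E :=
    (LinearEquiv.ofInjectiveEndo (fderiv ℝ F (c t) : E →ₗ[ℝ] E) hinj').toContinuousLinearEquiv
  have hL : (L : E →L[ℝ] E) = fderiv ℝ F (c t) := by
    ext z; rfl
  have hFd : HasFDerivAt F (L : E →L[ℝ] E) (c t) := by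
    rw [hL]; exact (hF.differentiableAt one_ne_zero).hasFDerivAt
  let φ := hF.toOpenPartialHomeomorph F hFd one_ne_zero
  have hφ : ∀ z, φ z = F z := fun z => rfl
  have hmem : c t ∈ φ.source := hF.mem_toOpenPartialHomeomorph_source hFd one_ne_zero
  have hev : ∀ᶠ s in 𝓝 t, c s = φ.symm (x s) := by
    have h1 : ∀ᶠ s in 𝓝 t, c s ∈ φ.source := hc (φ.open_source.mem_nhds hmem)
    filter_upwards [h1, hx] with s h2 h3
    rw [← h3, ← hφ, φ.left_inv h2]
  have hxt : x t = F (c t) := hx.self_of_nhds.symm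
  have htar : x t ∈ φ.target := by rw [hxt, ← hφ]; exact φ.map_source hmem
  have hsymm : φ.symm (x t) = c t := by rw [hxt, ← hφ, φ.left_inv hmem]
  have h4 : HasFDerivAt φ.symm (L.symm : E →L[ℝ] E) (x t) := by
    apply φ.hasFDerivAt_symm htar
    rw [hsymm]
    exact hFd
  have h5 : HasDerivAt (φ.symm ∘ x) (L.symm w) t := h4.comp_hasDerivAt t hxd
  refine ⟨L.symm w, h5.congr_of_eventuallyEq hev, ?_⟩
  rw [← hL]
  exact L.apply_symm_apply w

end Basic

section Exp

variable {E : Type} [NormedAddCommGroup E] [NormedSpace ℝ E] [FiniteDimensional ℝ E]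
variable {M : Type} [TopologicalSpace M] [ChartedSpace E M]

omit [FiniteDimensional ℝ E] in
theorem Metric.ip_symm (g : Metric E M) (m : M) (v w : E) : g.ip m v w = g.ip m w v :=
  g.symm m _ (mem_chart_target E m) v w

omit [FiniteDimensional ℝ E] in
theorem Metric.ip_pos (g : Metric E M) (m : M) (v : E) (hv : v ≠ 0) : 0 < g.ip m v v :=
  g.pos m _ (mem_chart_target E m) v hv

variable {g : Metric E M} {e : M → E → M}

theorem IsExp.isLocalHomeomorph (he : IsExp g e) (m : M)
    (inj : ∀ (v w : E) (a : M), e m v ∈ (chartAt E a).source →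
      fderiv ℝ (fun x => chartAt E a (e m x)) v w = 0 → w = 0) :
    IsLocalHomeomorph (e m) := by
  apply IsLocalHomeomorph.mk
  intro v
  set a := e m v with ha
  set F : E → E := fun x => chartAt E a (e m x) with hFdef
  have hsrc : e m v ∈ (chartAt E a).source := by rw [← ha]; exact mem_chart_source E a
  have hF : ContDiffAt ℝ 1 F v := he.smooth m v a hsrc
  have hinj' : Function.Injective (fderiv ℝ F v : E →ₗ[ℝ] E) := by
    rw [← LinearMap.ker_eq_bot, LinearMap.ker_eq_bot']
    exact fun z hz => inj v z a hsrc hz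
  let L : E ≃L[ℝ] E :=
    (LinearEquiv.ofInjectiveEndo (fderiv ℝ F v : E →ₗ[ℝ] E) hinj').toContinuousLinearEquiv
  have hL : (L : E →L[ℝ] E) = fderiv ℝ F v := by
    ext z; rfl
  have hFd : HasFDerivAt F (L : E →L[ℝ] E) v := by
    rw [hL]; exact (hF.differentiableAt one_ne_zero).hasFDerivAt
  let φ := hF.toOpenPartialHomeomorph F hFd one_ne_zero
  have hφ : ∀ z, φ z = F z := fun z => rfl
  have hmem : v ∈ φ.source := hF.mem_toOpenPartialHomeomorph_source hFd one_ne_zero
  have hopen : IsOpen (e m ⁻¹' (chartAt E a).source) :=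
    (chartAt E a).open_source.preimage (he.cont m)
  let φ' := φ.restrOpen _ hopen
  let ψ := φ'.trans (chartAt E a).symm
  refine ⟨ψ, ?_, ?_⟩
  · rw [OpenPartialHomeomorph.trans_source]
    refine ⟨⟨hmem, hsrc⟩, ?_⟩
    change F v ∈ (chartAt E a).symm.source
    exact (chartAt E a).map_source hsrc
  · intro x hx
    rw [OpenPartialHomeomorph.trans_source] at hx
    have hx1 : e m x ∈ (chartAt E a).source := hx.1.2
    change e m x = (chartAt E a).symm (F x)
    rw [hFdef]
    exact ((chartAt E a).left_inv hx1).symm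

/-- the statement of the Gauss lemma at `m` -/
def GaussAt (g : Metric E M) (e : M → E → M) (m : M) : Prop :=
  ∀ (v w : E) (a : M), e m v ∈ (chartAt E a).source →
    g.coef a (chartAt E a (e m v)) (fderiv ℝ (fun x => chartAt E a (e m x)) v v)
      (fderiv ℝ (fun x => chartAt E a (e m x)) v w) = g.ip m v w

/-- the differential of the exponential map at `m` is injective everywhere -/
def InjAt (E : Type) [NormedAddCommGroup E] [NormedSpace ℝ E] {M : Type} [TopologicalSpace M]
    [ChartedSpace E M] (e : M → E → M) (m : M) : Prop :=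
  ∀ (v w : E) (a : M), e m v ∈ (chartAt E a).source →
    fderiv ℝ (fun x => chartAt E a (e m x)) v w = 0 → w = 0

/-- A priori bound for lifts of curves in a chart. -/
theorem IsExp.lift_bound (he : IsExp g e) {m : M} (hG : GaussAt g e m) (hI : InjAt E e m)
    {a : M} {x w : ℝ → E} {T C : ℝ} (hC0 : 0 ≤ C)
    (hx : ∀ t ∈ Icc 0 T, x t ∈ (chartAt E a).target)
    (hxd : ∀ t ∈ Ioo 0 T, HasDerivAt x (w t) t)
    (hC : ∀ t ∈ Ioo 0 T, g.coef a (x t) (w t) (w t) ≤ C ^ 2)
    {Γ : ℝ → E} (hΓ : ContinuousOn Γ (Icc 0 T))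
    (hl : ∀ t ∈ Icc 0 T, e m (Γ t) = (chartAt E a).symm (x t)) :
    ∀ t ∈ Icc 0 T, Real.sqrt (g.ip m (Γ t) (Γ t) + 1) ≤
      Real.sqrt (g.ip m (Γ 0) (Γ 0) + 1) + C * t := by
  have hipn : ∀ v, 0 ≤ g.ip m v v := nonneg_of_pos (g.ip_pos m)
  have hcontN : ContinuousOn (fun t => g.ip m (Γ t) (Γ t)) (Icc 0 T) := by fun_prop
  have hcont : ContinuousOn (fun t => Real.sqrt (g.ip m (Γ t) (Γ t) + 1) - C * t)
      (Icc 0 T) := by fun_prop
  have hder : ∀ t ∈ Ioo 0 T, ∃ d ≤ 0, HasDerivAt
      (fun t => Real.sqrt (g.ip m (Γ t) (Γ t) + 1) - C * t) d t := by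
    intro t ht
    have ht' : t ∈ Icc 0 T := Ioo_subset_Icc_self ht
    have hnb : Icc 0 T ∈ 𝓝 t := Icc_mem_nhds ht.1 ht.2
    have hct : ContinuousAt Γ t := hΓ.continuousAt hnb
    have hsrc : e m (Γ t) ∈ (chartAt E a).source := by
      rw [hl t ht']; exact (chartAt E a).map_target (hx t ht')
    have hFx : ∀ s ∈ Icc 0 T, chartAt E a (e m (Γ s)) = x s := fun s hs => by
      rw [hl s hs, (chartAt E a).right_inv (hx s hs)]
    obtain ⟨c', hc', hc''⟩ := hasDerivAt_lift (he.smooth m (Γ t) a hsrc)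
      (fun z hz => hI (Γ t) z a hsrc hz) hct
      (by filter_upwards [hnb] with s hs; exact hFx s hs) (hxd t ht)
    have hN : HasDerivAt (fun s => g.ip m (Γ s) (Γ s)) (g.ip m c' (Γ t) + g.ip m (Γ t) c') t := by
      have h1 : HasDerivAt (fun s => g.ip m (Γ s)) (g.ip m c') t :=
        (g.ip m).hasFDerivAt.comp_hasDerivAt t hc'
      exact h1.clm_apply hc'
    have hN1 : 0 < g.ip m (Γ t) (Γ t) + 1 := by have := hipn (Γ t); linarith
    have hS : HasDerivAt (fun s => Real.sqrt (g.ip m (Γ s) (Γ s) + 1))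
        ((g.ip m c' (Γ t) + g.ip m (Γ t) c') / (2 * Real.sqrt (g.ip m (Γ t) (Γ t) + 1))) t :=
      (hN.add_const 1).sqrt hN1.ne'
    refine ⟨_, ?_, hS.sub ((hasDerivAt_id t).const_mul C)⟩
    rw [g.ip_symm m c' (Γ t)]
    have hg1 := hG (Γ t) (Γ t) a hsrc
    have hg2 := hG (Γ t) c' a hsrc
    rw [hc'', hFx t ht'] at hg2
    rw [hFx t ht'] at hg1
    have hcs := cs_form (g.coef a (x t)) (g.symm a _ (hx t ht'))
      (nonneg_of_pos (g.pos a _ (hx t ht')))
      (fderiv ℝ (fun x => chartAt E a (e m x)) (Γ t) (Γ t)) (w t)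
    rw [hg1, hg2] at hcs
    have h2 : Real.sqrt (g.coef a (x t) (w t) (w t)) ≤ C := by
      rw [Real.sqrt_le_left hC0]; exact hC t ht
    have h3 : Real.sqrt (g.ip m (Γ t) (Γ t)) ≤ Real.sqrt (g.ip m (Γ t) (Γ t) + 1) :=
      Real.sqrt_le_sqrt (by linarith)
    have h4 : 0 < Real.sqrt (g.ip m (Γ t) (Γ t) + 1) := Real.sqrt_pos.2 hN1
    have h5 : g.ip m (Γ t) c' ≤ Real.sqrt (g.ip m (Γ t) (Γ t) + 1) * C :=
      hcs.trans (mul_le_mul h3 h2 (Real.sqrt_nonneg _) h4.le)
    rw [mul_one, sub_nonpos, div_le_iff₀ (by linarith)]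
    linarith
  have hanti : AntitoneOn (fun t => Real.sqrt (g.ip m (Γ t) (Γ t) + 1) - C * t) (Icc 0 T) := by
    apply antitoneOn_of_deriv_nonpos (convex_Icc _ _) hcont
    · rw [interior_Icc]
      intro t ht
      obtain ⟨d, _, hd⟩ := hder t ht
      exact hd.differentiableAt.differentiableWithinAt
    · rw [interior_Icc]
      intro t ht
      obtain ⟨d, hd0, hd⟩ := hder t ht
      rw [hd.deriv]; exact hd0
  intro t ht
  have h0 : (0 : ℝ) ∈ Icc 0 T := ⟨le_rfl, ht.1.trans ht.2⟩
  have := hanti h0 ht ht.1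
  simp only [mul_zero, sub_zero] at this
  linarith

/-- Segments in a chart lift. -/
theorem IsExp.lift_segment [T2Space M] (he : IsExp g e) {m : M} (hG : GaussAt g e m)
    (hI : InjAt E e m) {a : M} {x₁ x₂ : E}
    (hx : ∀ t ∈ Icc (0 : ℝ) 1, x₁ + t • (x₂ - x₁) ∈ (chartAt E a).target) {v : E}
    (hv : e m v = (chartAt E a).symm x₁) :
    ∃ Γ, IsLiftOn (e m) (fun t : ℝ => (chartAt E a).symm (x₁ + t • (x₂ - x₁))) v 1 Γ := by
  have hcx : Continuous fun t : ℝ => x₁ + t • (x₂ - x₁) := by fun_prop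
  have hcont : ContinuousOn (fun t : ℝ => g.coef a (x₁ + t • (x₂ - x₁)) (x₂ - x₁) (x₂ - x₁))
      (Icc 0 1) := by
    have h1 : ContinuousOn (fun t : ℝ => g.coef a (x₁ + t • (x₂ - x₁))) (Icc 0 1) :=
      (g.smooth a).continuousOn.comp hcx.continuousOn hx
    fun_prop
  obtain ⟨C₀, hC₀⟩ := (isCompact_Icc (a := (0 : ℝ)) (b := 1)).exists_bound_of_continuousOn hcont
  set C := |C₀| + 1 with hCdef
  have hCpos : 0 ≤ C := by positivity
  have hCb : ∀ t ∈ Icc (0 : ℝ) 1,
      g.coef a (x₁ + t • (x₂ - x₁)) (x₂ - x₁) (x₂ - x₁) ≤ C ^ 2 := by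
    intro t ht
    have h1 := hC₀ t ht
    rw [Real.norm_eq_abs] at h1
    have h2 := (le_abs_self _).trans h1
    have h3 : C₀ ≤ |C₀| := le_abs_self _
    (by_contra nlg; linarith only [nlg, mul_nonneg (sub_nonneg.2 hCpos) (sub_nonneg.2 h3), mul_nonneg (sub_nonneg.2 hCpos) (sub_nonneg.2 h2), mul_nonneg (le_of_lt (sub_pos.2 (not_le.1 nlg))) (sub_nonneg.2 hCpos), mul_nonneg (sq_nonneg (C : ℝ)) (sub_nonneg.2 (abs_nonneg C₀)), abs_nonneg C₀])
  set R := (Real.sqrt (g.ip m v v + 1) + C) ^ 2 with hR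
  refine exists_lift (he.isLocalHomeomorph m hI) ?_ ?_ (K := {u : E | g.ip m u u ≤ R})
    (isCompact_form (g.ip m) (g.ip_pos m) R) ?_
  · exact (chartAt E a).continuousOn_symm.comp hcx.continuousOn hx
  · simp [hv]
  · intro T hT Γ hΓ t ht
    have hT' : Icc 0 T ⊆ Icc (0 : ℝ) 1 := Icc_subset_Icc_right hT.2
    have hb := he.lift_bound hG hI (T := T) hCpos (x := fun t => x₁ + t • (x₂ - x₁))
      (w := fun _ => x₂ - x₁)
      (fun t ht => hx t (hT' ht)) (fun t _ => by
        have := ((hasDerivAt_id t).smul_const (x₂ - x₁)).const_add x₁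
        simpa using this)
      (fun t ht => hCb t (hT' (Ioo_subset_Icc_self ht))) hΓ.1 hΓ.2.1 t ht
    rw [hΓ.2.2] at hb
    have ht1 : t ≤ 1 := ht.2.trans hT.2
    have h1 : Real.sqrt (g.ip m (Γ t) (Γ t) + 1) ≤ Real.sqrt (g.ip m v v + 1) + C := by
      linarith only [mul_nonneg (sub_nonneg.2 hCpos) (sub_nonneg.2 ht1), hb]
    have h2 := pow_le_pow_left₀ (Real.sqrt_nonneg _) h1 2
    rw [Real.sq_sqrt (by have := nonneg_of_pos (g.ip_pos m) (Γ t); linarith)] at h2
    change g.ip m (Γ t) (Γ t) ≤ R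
    linarith

/-- The exponential map is a covering map. -/
theorem IsExp.isCoveringMap_of [T2Space M] (he : IsExp g e) {m : M} (hG : GaussAt g e m)
    (hI : InjAt E e m) : IsCoveringMap (e m) := by
  apply isCoveringMap_of_lifts (he.isLocalHomeomorph m hI) (T2Space.isSeparatedMap _)
  intro x₀
  set φ := chartAt E x₀ with hφ
  obtain ⟨r, hr, hball⟩ := Metric.isOpen_iff.1 φ.open_target (φ x₀) (mem_chart_target E x₀)
  set B := Metric.ball (φ x₀) r with hB
  set U := φ.source ∩ φ ⁻¹' B with hU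
  have hUo : IsOpen U := φ.isOpen_inter_preimage Metric.isOpen_ball
  have hx₀U : x₀ ∈ U := ⟨mem_chart_source E x₀, Metric.mem_ball_self hr⟩
  have hcB : φ x₀ ∈ B := Metric.mem_ball_self hr
  have hseg : ∀ (y z : E), y ∈ B → z ∈ B → ∀ t ∈ Icc (0 : ℝ) 1, y + t • (z - y) ∈ B := by
    intro y z hy hz t ht
    exact (convex_ball (φ x₀) r).add_smul_sub_mem hy hz ht
  let H : I × U → M := fun q => φ.symm (φ x₀ + (q.1 : ℝ) • (φ q.2 - φ x₀))
  have hmem : ∀ q : I × U, φ x₀ + (q.1 : ℝ) • (φ q.2 - φ x₀) ∈ B := fun q =>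
    hseg _ _ hcB q.2.2.2 _ q.1.2
  have hφU : Continuous fun u : U => φ u :=
    (φ.continuousOn.mono inter_subset_left).domRestrict
  refine ⟨U, hUo, hx₀U, H, ?_, ?_, ?_, ?_, ?_, ?_⟩
  · have h1 : Continuous fun q : I × U => φ x₀ + (q.1 : ℝ) • (φ q.2 - φ x₀) :=
      continuous_const.add ((continuous_subtype_val.comp continuous_fst).smul
        ((hφU.comp continuous_snd).sub continuous_const))
    exact φ.continuousOn_symm.comp_continuous h1 fun q => hball (hmem q)
  · intro q
    refine ⟨φ.map_target (hball (hmem q)), ?_⟩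
    change φ (H q) ∈ B
    rw [φ.right_inv (hball (hmem q))]
    exact hmem q
  · intro u
    simp only [H, Icc.coe_zero, zero_smul, add_zero]
    exact φ.left_inv (mem_chart_source E x₀)
  · intro u
    simp only [H, Icc.coe_one, one_smul, add_sub_cancel]
    exact φ.left_inv u.2.1
  · intro u v hv
    obtain ⟨Γ, h1, h2, h3⟩ := he.lift_segment hG hI (m := m) (a := x₀) (x₁ := φ x₀) (x₂ := φ u)
      (fun t ht => hball (hseg _ _ hcB u.2.2 t ht)) (v := v) (by
        rw [hv]
        simp only [H, Icc.coe_zero, zero_smul, add_zero]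
        rfl)
    refine ⟨fun t : I => Γ t, ?_, ?_, ?_⟩
    · exact h1.comp_continuous continuous_subtype_val fun t => t.2
    · intro t
      exact h2 t t.2
    · exact h3
  · intro u v hv
    obtain ⟨Γ, h1, h2, h3⟩ := he.lift_segment hG hI (m := m) (a := x₀) (x₁ := φ u) (x₂ := φ x₀)
      (fun t ht => hball (hseg _ _ u.2.2 hcB t ht)) (v := v) (by
        rw [hv]
        simp only [H, unitInterval.symm_zero, Icc.coe_one, one_smul, add_sub_cancel]
        rfl)
    refine ⟨fun t : I => Γ t, ?_, ?_, ?_⟩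
    · exact h1.comp_continuous continuous_subtype_val fun t => t.2
    · intro t
      rw [h2 t t.2]
      simp only [H, unitInterval.coe_symm_eq]
      congr 1
      module
    · exact h3

omit [FiniteDimensional ℝ E] in
/-- translation of the time parameter of a geodesic -/
theorem IsGeodesic.comp_add {γ : ℝ → M} (h : IsGeodesic g γ) (s : ℝ) :
    IsGeodesic g (fun t => γ (s + t)) := by
  have hadd : Continuous fun t : ℝ => s + t := by fun_prop
  refine ⟨?_, ?_⟩
  · exact (h.cont.comp hadd.continuousOn fun _ _ => mem_univ _)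
  · intro a t _ hsrc
    obtain ⟨h1, h2, h3⟩ := h.eqn a (s + t) (mem_univ _) hsrc
    have e1 : cc (E := E) (fun t => γ (s + t)) a = fun t => cc (E := E) γ a (s + t) := rfl
    have e2 : deriv (fun t => cc (E := E) γ a (s + t)) = fun t => deriv (cc (E := E) γ a) (s + t) := by
      funext t
      exact deriv_comp_const_add _ s t
    rw [e1, e2]
    refine ⟨?_, ?_, ?_⟩
    · exact h1.comp t (by fun_prop : DifferentiableAt ℝ (fun t => s + t) t)
    · exact h2.comp t (by fun_prop : DifferentiableAt ℝ (fun t => s + t) t)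
    · exact (deriv_comp_const_add (deriv (cc (E := E) γ a)) s t).trans h3

omit [FiniteDimensional ℝ E] in
/-- speed of `t ↦ e q (t w)` in a chart -/
theorem IsExp.hasDerivAt_ray' (he : IsExp g e) (q : M) (w : E) (t : ℝ) (a : M)
    (ha : e q (t • w) ∈ (chartAt E a).source) :
    HasDerivAt (fun s : ℝ => chartAt E a (e q (s • w)))
      (fderiv ℝ (fun x => chartAt E a (e q x)) (t • w) w) t := by
  have h1 := ((he.smooth q (t • w) a ha).differentiableAt one_ne_zero).hasFDerivAt
  have h2 : HasDerivAt (fun s : ℝ => s • w) ((1 : ℝ) • w) t := (hasDerivAt_id t).smul_const w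
  have h3 := h1.comp_hasDerivAt t h2
  rw [one_smul] at h3
  exact h3

omit [FiniteDimensional ℝ E] in
theorem speed_of_gaussAt {q : M} (hG : GaussAt g e q) (w : E) (t : ℝ) (a : M)
    (ha : e q (t • w) ∈ (chartAt E a).source) (ht : t ≠ 0) :
    g.coef a (chartAt E a (e q (t • w))) (fderiv ℝ (fun x => chartAt E a (e q x)) (t • w) w)
      (fderiv ℝ (fun x => chartAt E a (e q x)) (t • w) w) = g.ip q w w := by
  have h := hG (t • w) (t • w) a ha
  simp only [map_smul, smul_apply, smul_eq_mul] at h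
  have ht2 : t * t ≠ 0 := mul_ne_zero ht ht
  apply mul_left_cancel₀ ht2
  linarith

omit [FiniteDimensional ℝ E] in
theorem IsExp.shift_of (he : IsExp g e) {m : M} (hG : GaussAt g e m) (u : E) (s : ℝ) :
    ∃ w, g.ip (e m (s • u)) w w = g.ip m u u ∧
      ∀ t : ℝ, e m ((s + t) • u) = e (e m (s • u)) (t • w) := by
  have hgeo : IsGeodesic g (fun t => e m ((s + t) • u)) :=
    IsGeodesic.comp_add (he.geod m u) s
  have huniq := he.uniq _ hgeo
  simp only [add_zero] at huniq
  refine ⟨_, ?_, huniq⟩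
  set p := e m (s • u) with hp
  have hsrc : e m (s • u) ∈ (chartAt E p).source := by rw [← hp]; exact mem_chart_source E p
  have hd : deriv (cc (E := E) (fun t => e m ((s + t) • u)) p) 0 =
      fderiv ℝ (fun x => chartAt E p (e m x)) (s • u) u := by
    have h1 := he.hasDerivAt_ray' m u s p hsrc
    have h2 : HasDerivAt (fun t : ℝ => chartAt E p (e m ((s + t) • u)))
        (fderiv ℝ (fun x => chartAt E p (e m x)) (s • u) u) 0 := by
      have h3 : HasDerivAt (fun t : ℝ => chartAt E p (e m (t • u)))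
        (fderiv ℝ (fun x => chartAt E p (e m x)) (s • u) u) (s + 0) := by rwa [add_zero]
      exact h3.comp_const_add s 0
    exact h2.deriv
  rw [hd]
  rcases eq_or_ne s 0 with hs | hs
  · have hpm : p = m := by rw [hp, hs, zero_smul, he.zero]
    have h1 : fderiv ℝ (fun x => chartAt E p (e m x)) (s • u) u = u := by
      rw [hpm]
      have h2 := he.hasDerivAt_ray' m u s m (by rw [← hp, hpm]; exact mem_chart_source E m)
      have h3 := he.init m u
      rw [hs] at h2 ⊢
      exact h2.unique h3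
    rw [h1, hpm]
  · have := speed_of_gaussAt hG u s p hsrc hs
    rw [← hp] at this
    exact this

/-- the comparison estimate at `m` -/
def RauchAt (g : Metric E M) (e : M → E → M) (m : M) : Prop :=
  ∀ (v w : E) (a : M), e m v ∈ (chartAt E a).source →
    g.ip m w w ≤ g.coef a (chartAt E a (e m v)) (fderiv ℝ (fun x => chartAt E a (e m x)) v w)
      (fderiv ℝ (fun x => chartAt E a (e m x)) v w)

omit [FiniteDimensional ℝ E] in
theorem RauchAt.injAt {m : M} (h : RauchAt g e m) : InjAt E e m := by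
  intro v w a ha h0
  by_contra hw
  have h1 := h v w a ha
  rw [h0] at h1
  simp only [map_zero] at h1
  exact absurd (g.ip_pos m w hw) (not_lt.2 h1)

theorem IsExp.compare_of (he : IsExp g e) {m q : M} (hR : RauchAt g e m)
    (hGq : GaussAt g e q) (w : E) (c : ℝ → E) (hc : ContinuousOn c (Icc 0 1))
    (h : ∀ t ∈ Icc (0 : ℝ) 1, e m (c t) = e q (t • w)) :
    g.ip m (c 1 - c 0) (c 1 - c 0) ≤ g.ip q w w := by
  set l := c 1 - c 0 with hl
  have hipn : ∀ v, 0 ≤ g.ip m v v := nonneg_of_pos (g.ip_pos m)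
  set A := Real.sqrt (g.ip m l l) * Real.sqrt (g.ip q w w) with hA
  have hcont : ContinuousOn (fun t => g.ip m l (c t) - A * t) (Icc 0 1) := by fun_prop
  have hder : ∀ t ∈ Ioo (0 : ℝ) 1, ∃ d ≤ 0, HasDerivAt (fun t => g.ip m l (c t) - A * t) d t := by
    intro t ht
    have ht' : t ∈ Icc (0 : ℝ) 1 := Ioo_subset_Icc_self ht
    have hnb : Icc (0 : ℝ) 1 ∈ 𝓝 t := Icc_mem_nhds ht.1 ht.2
    have hct : ContinuousAt c t := hc.continuousAt hnb
    set a := e q (t • w) with ha
    have hsrcq : e q (t • w) ∈ (chartAt E a).source := by rw [← ha]; exact mem_chart_source E a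
    have hsrcm : e m (c t) ∈ (chartAt E a).source := by rw [h t ht']; exact hsrcq
    obtain ⟨c', hc', hc''⟩ := hasDerivAt_lift (he.smooth m (c t) a hsrcm)
      (fun z hz => hR.injAt (c t) z a hsrcm hz) hct
      (x := fun s => chartAt E a (e q (s • w)))
      (by filter_upwards [hnb] with s hs; rw [h s hs]) (he.hasDerivAt_ray' q w t a hsrcq)
    have hr := hR (c t) c' a hsrcm
    rw [hc'', h t ht', ← ha] at hr
    have hsp := speed_of_gaussAt hGq w t a hsrcq ht.1.ne'
    rw [← ha] at hsp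
    rw [hsp] at hr
    have hS : HasDerivAt (fun s => g.ip m l (c s)) (g.ip m l c') t :=
      (g.ip m l).hasFDerivAt.comp_hasDerivAt t hc'
    refine ⟨_, ?_, hS.sub ((hasDerivAt_id t).const_mul A)⟩
    rw [mul_one, sub_nonpos]
    exact (cs_form (g.ip m) (g.ip_symm m) hipn l c').trans
      (mul_le_mul_of_nonneg_left (Real.sqrt_le_sqrt hr) (Real.sqrt_nonneg _))
  have hanti : AntitoneOn (fun t => g.ip m l (c t) - A * t) (Icc 0 1) := by
    apply antitoneOn_of_deriv_nonpos (convex_Icc _ _) hcont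
    · rw [interior_Icc]
      intro t ht
      obtain ⟨d, _, hd⟩ := hder t ht
      exact hd.differentiableAt.differentiableWithinAt
    · rw [interior_Icc]
      intro t ht
      obtain ⟨d, hd0, hd⟩ := hder t ht
      rw [hd.deriv]; exact hd0
  have h1 := hanti (left_mem_Icc.2 zero_le_one) (right_mem_Icc.2 zero_le_one) zero_le_one
  simp only [mul_zero, sub_zero, mul_one] at h1
  have h2 : g.ip m l l ≤ A := by
    have : g.ip m l l = g.ip m l (c 1) - g.ip m l (c 0) := by rw [← map_sub, ← hl]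
    linarith
  rcases (hipn l).eq_or_lt with h0 | h0
  · rw [← h0]; exact nonneg_of_pos (g.ip_pos q) w
  · have h3 : 0 < Real.sqrt (g.ip m l l) := Real.sqrt_pos.2 h0
    have h4 : Real.sqrt (g.ip m l l) * Real.sqrt (g.ip m l l) ≤ A := by
      rw [Real.mul_self_sqrt h0.le]; exact h2
    have h5 := le_of_mul_le_mul_left h4 h3
    exact (Real.sqrt_le_sqrt_iff (nonneg_of_pos (g.ip_pos q) w)).1 h5

end Exp

end Vale.Agent.P219.RG
end
end
end

section

section

/-!
# P255: vector fields along curves; chart-independent inner products and their derivatives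
-/

open scoped Manifold ContDiff Topology
open Set Filter

set_option maxSynthPendingDepth 3

noncomputable section

namespace Vale.Agent.P219.RG

variable {E : Type} [NormedAddCommGroup E] [NormedSpace ℝ E]
variable {M : Type} [TopologicalSpace M] [ChartedSpace E M]

theorem Metric.isMetricOn' (g : Metric E M) (a : M) :
    IsMetricOn (g.coef a) (chartAt E a).target where
  isOpen := (chartAt E a).open_target
  smooth := g.smooth a
  symm := g.symm a
  pos := g.pos a

theorem contDiffAt_trans [IsManifold 𝓘(ℝ, E) ∞ M] (a b : M) {u : E}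
    (hu : u ∈ (chartAt E a).target) (hb : (chartAt E a).symm u ∈ (chartAt E b).source) :
    ContDiffAt ℝ ∞ (trans E a b) u := by
  have h1 : u ∈ ((extChartAt 𝓘(ℝ, E) a).symm ≫ extChartAt 𝓘(ℝ, E) b).source := by
    rw [ext_coord_change_source]
    simp [hu, hb]
  have := contDiffWithinAt_ext_coord_change (I := 𝓘(ℝ, E)) (n := ∞) b a h1
  have h2 : trans E a b = (extChartAt 𝓘(ℝ, E) b) ∘ (extChartAt 𝓘(ℝ, E) a).symm := by
    funext v
    simp [trans]
  rw [h2, ← contDiffWithinAt_univ]
  simpa using this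

/-- components of a vector field along `γ`, compatible with the changes of charts -/
def Compat (γ : ℝ → M) (X : M → ℝ → E) : Prop :=
  ∀ a b t, γ t ∈ (chartAt E a).source → γ t ∈ (chartAt E b).source →
    X b t = fderiv ℝ (trans E a b) (cc γ a t) (X a t)

/-- inner product of two vector fields along `γ` -/
def prodF (g : Metric E M) (γ : ℝ → M) (X Y : M → ℝ → E) (t : ℝ) : ℝ :=
  g.coef (γ t) (cc γ (γ t) t) (X (γ t) t) (Y (γ t) t)

theorem cc_mem {γ : ℝ → M} {a : M} {t : ℝ} (ha : γ t ∈ (chartAt E a).source) :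
    cc (E := E) γ a t ∈ (chartAt E a).target := (chartAt E a).map_source ha

theorem symm_cc {γ : ℝ → M} {a : M} {t : ℝ} (ha : γ t ∈ (chartAt E a).source) :
    (chartAt E a).symm (cc (E := E) γ a t) = γ t := (chartAt E a).left_inv ha

theorem trans_cc {γ : ℝ → M} {a b : M} {t : ℝ} (ha : γ t ∈ (chartAt E a).source) :
    trans E a b (cc (E := E) γ a t) = cc γ b t := by
  unfold trans; rw [symm_cc ha]; rfl

theorem prodF_eq (g : Metric E M) {γ : ℝ → M} {X Y : M → ℝ → E} (hX : Compat γ X)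
    (hY : Compat γ Y) {a : M} {t : ℝ} (ha : γ t ∈ (chartAt E a).source) :
    prodF g γ X Y t = g.coef a (cc γ a t) (X a t) (Y a t) := by
  unfold prodF
  have hm := mem_chart_source E (γ t)
  rw [hX a (γ t) t ha hm, hY a (γ t) t ha hm, ← trans_cc ha]
  exact g.compat a (γ t) _ (cc_mem ha) (by rw [symm_cc ha]; exact hm) _ _

/-- the velocity of a geodesic, in charts -/
def vel (γ : ℝ → M) (a : M) (t : ℝ) : E := deriv (cc (E := E) γ a) t

theorem eventually_mem_source {γ : ℝ → M} {t : ℝ} (hγ : ContinuousAt γ t) {a : M}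
    (ha : γ t ∈ (chartAt E a).source) : ∀ᶠ s in 𝓝 t, γ s ∈ (chartAt E a).source :=
  hγ ((chartAt E a).open_source.mem_nhds ha)

theorem vel_compat [IsManifold 𝓘(ℝ, E) ∞ M] {γ : ℝ → M} (hγ : Continuous γ)
    (hd : ∀ a t, γ t ∈ (chartAt E a).source → DifferentiableAt ℝ (cc (E := E) γ a) t) :
    Compat (E := E) γ (vel γ) := by
  intro a b t ha hb
  have h1 : cc (E := E) γ b =ᶠ[𝓝 t] fun s => trans E a b (cc γ a s) := by
    filter_upwards [eventually_mem_source hγ.continuousAt ha] with s hs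
    exact (trans_cc hs).symm
  unfold vel
  rw [h1.deriv_eq]
  have h2 : DifferentiableAt ℝ (trans E a b) (cc γ a t) :=
    (contDiffAt_trans a b (cc_mem ha) (by rw [symm_cc ha]; exact hb)).differentiableAt (by simp)
  exact (h2.hasFDerivAt.comp_hasDerivAt t (hd a t ha).hasDerivAt).deriv

theorem IsGeodesic.continuous {g : Metric E M} {γ : ℝ → M} (h : IsGeodesic g γ) :
    Continuous γ := by
  have := h.cont
  rwa [continuousOn_univ] at this

theorem IsGeodesic.vel_compat [IsManifold 𝓘(ℝ, E) ∞ M] {g : Metric E M} {γ : ℝ → M}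
    (h : IsGeodesic g γ) : Compat (E := E) γ (vel γ) :=
  Vale.Agent.P219.RG.vel_compat h.continuous (fun a t ha => (h.eqn a t (mem_univ _) ha).1)

theorem IsGeodesic.covD_vel {g : Metric E M} {γ : ℝ → M} (h : IsGeodesic g γ) {a : M} {t : ℝ}
    (ha : γ t ∈ (chartAt E a).source) :
    covD (g.coef a) (cc γ a) (vel γ a) t = 0 := by
  have h1 := (h.eqn a t (mem_univ _) ha).2.2
  unfold covD vel
  rw [h1]
  simp

section FD

variable [FiniteDimensional ℝ E]

theorem hasDerivAt_prodF (g : Metric E M) {γ : ℝ → M} (hγ : Continuous γ) {X Y : M → ℝ → E}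
    (hX : Compat γ X) (hY : Compat γ Y) {a : M} {t : ℝ} (ha : γ t ∈ (chartAt E a).source)
    (hc : DifferentiableAt ℝ (cc (E := E) γ a) t) (hXd : DifferentiableAt ℝ (X a) t)
    (hYd : DifferentiableAt ℝ (Y a) t) :
    HasDerivAt (prodF g γ X Y)
      (g.coef a (cc γ a t) (covD (g.coef a) (cc γ a) (X a) t) (Y a t) +
        g.coef a (cc γ a t) (X a t) (covD (g.coef a) (cc γ a) (Y a) t)) t := by
  have h1 := (g.isMetricOn' a).hasDerivAt_inner (cc_mem ha) hc hXd hYd
  refine h1.congr_of_eventuallyEq ?_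
  filter_upwards [eventually_mem_source hγ.continuousAt ha] with s hs
  exact prodF_eq g hX hY hs

theorem IsJacobi.compat' {g : Metric E M} {γ : ℝ → M} {J : M → ℝ → E} (hJ : IsJacobi g γ J) :
    Compat γ J := hJ.compat

/-- `⟨J, γ'⟩` is an affine function of time -/
theorem IsJacobi.prod_vel [IsManifold 𝓘(ℝ, E) ∞ M] {g : Metric E M} {γ : ℝ → M}
    (h : IsGeodesic g γ) {J : M → ℝ → E} (hJ : IsJacobi g γ J) :
    ∃ α β : ℝ, ∀ t, prodF g γ J (vel γ) t = α + β * t ∧
      HasDerivAt (prodF g γ J (vel γ)) β t := by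
  have h1 : ∀ a t, γ t ∈ (chartAt E a).source → HasDerivAt (prodF g γ J (vel γ))
      (g.coef a (cc γ a t) (covD (g.coef a) (cc γ a) (J a) t) (vel γ a t)) t := by
    intro a t ha
    have h2 := h.eqn a t (mem_univ _) ha
    have := hasDerivAt_prodF g h.continuous hJ.compat' h.vel_compat ha h2.1
      (hJ.eqn a t ha).1 h2.2.1
    rw [h.covD_vel ha] at this
    simpa using this
  have h3 : ∀ t, HasDerivAt (deriv (prodF g γ J (vel γ))) 0 t := by
    intro t
    have ha := mem_chart_source E (γ t)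
    have h2 := h.eqn (γ t) t (mem_univ _) ha
    have hm := g.isMetricOn' (γ t)
    have h4 := hm.hasDerivAt_inner (cc_mem ha) h2.1 (hJ.eqn (γ t) t ha).2.1 h2.2.1
    have h5 : covD (g.coef (γ t)) (cc γ (γ t)) (covD (g.coef (γ t)) (cc γ (γ t)) (J (γ t))) t =
        - curv (g.coef (γ t)) (cc γ (γ t) t) (J (γ t) t) (deriv (cc γ (γ t)) t)
          (deriv (cc γ (γ t)) t) := eq_neg_of_add_eq_zero_left (hJ.eqn (γ t) t ha).2.2
    have h6 := h.covD_vel ha
    unfold vel at h6
    rw [h5, show covD (g.coef (γ t)) (cc γ (γ t)) (deriv (cc γ (γ t))) t = 0 from h6] at h4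
    simp only [map_neg, neg_apply, map_zero, add_zero] at h4
    rw [hm.curv_skew (cc_mem ha), neg_zero] at h4
    refine h4.congr_of_eventuallyEq ?_
    filter_upwards [eventually_mem_source h.continuous.continuousAt ha] with s hs
    exact (h1 (γ t) s hs).deriv
  have h7 : ∀ s t, deriv (prodF g γ J (vel γ)) s = deriv (prodF g γ J (vel γ)) t :=
    is_const_of_deriv_eq_zero (fun t => (h3 t).differentiableAt) (fun t => (h3 t).deriv)
  refine ⟨prodF g γ J (vel γ) 0, deriv (prodF g γ J (vel γ)) 0, fun t => ⟨?_, ?_⟩⟩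
  · have h8 : ∀ t, HasDerivAt (fun t => prodF g γ J (vel γ) t -
        deriv (prodF g γ J (vel γ)) 0 * t) 0 t := by
      intro t
      have h9 := (h1 (γ t) t (mem_chart_source E (γ t))).differentiableAt.hasDerivAt
      have := h9.sub ((hasDerivAt_id t).const_mul (deriv (prodF g γ J (vel γ)) 0))
      refine this.congr_deriv ?_
      rw [h7 t 0]; simp
    have h9 := is_const_of_deriv_eq_zero (fun t => (h8 t).differentiableAt)
      (fun t => (h8 t).deriv) t 0
    simp only [mul_zero, sub_zero] at h9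
    linarith
  · rw [← h7 t 0]
    exact (h1 (γ t) t (mem_chart_source E (γ t))).differentiableAt.hasDerivAt

/-- first and second derivatives of `|J|²` -/
theorem IsJacobi.deriv_sq {g : Metric E M} {γ : ℝ → M}
    (h : IsGeodesic g γ) {J : M → ℝ → E} (hJ : IsJacobi g γ J) {a : M} {t : ℝ}
    (ha : γ t ∈ (chartAt E a).source) :
    HasDerivAt (prodF g γ J J)
      (2 * g.coef a (cc γ a t) (covD (g.coef a) (cc γ a) (J a) t) (J a t)) t ∧
    HasDerivAt (deriv (prodF g γ J J))
      (2 * (g.coef a (cc γ a t) (covD (g.coef a) (cc γ a) (J a) t)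
          (covD (g.coef a) (cc γ a) (J a) t) -
        g.coef a (cc γ a t) (curv (g.coef a) (cc γ a t) (J a t) (deriv (cc γ a) t)
          (deriv (cc γ a) t)) (J a t))) t := by
  have hm := g.isMetricOn' a
  have h1 : ∀ t, γ t ∈ (chartAt E a).source → HasDerivAt (prodF g γ J J)
      (2 * g.coef a (cc γ a t) (covD (g.coef a) (cc γ a) (J a) t) (J a t)) t := by
    intro t ha
    have h2 := h.eqn a t (mem_univ _) ha
    have h3 := hJ.eqn a t ha
    have := hasDerivAt_prodF g h.continuous hJ.compat' hJ.compat' ha h2.1 h3.1 h3.1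
    refine this.congr_deriv ?_
    rw [hm.symm _ (cc_mem ha) (J a t)]
    ring
  refine ⟨h1 t ha, ?_⟩
  have h2 := h.eqn a t (mem_univ _) ha
  have h3 := hJ.eqn a t ha
  have h4 := (hm.hasDerivAt_inner (cc_mem ha) h2.1 h3.2.1 h3.1).const_mul 2
  have h5 : covD (g.coef a) (cc γ a) (covD (g.coef a) (cc γ a) (J a)) t =
      - curv (g.coef a) (cc γ a t) (J a t) (deriv (cc γ a) t) (deriv (cc γ a) t) :=
    eq_neg_of_add_eq_zero_left h3.2.2
  rw [h5] at h4
  refine (h4.congr_deriv ?_).congr_of_eventuallyEq ?_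
  · simp only [map_neg, neg_apply]
    ring
  · filter_upwards [eventually_mem_source h.continuous.continuousAt ha] with s hs
    exact (h1 s hs).deriv

end FD

end Vale.Agent.P219.RG
end
end
end

section

section

/-!
# P255: uniqueness of Jacobi fields; nonpositive curvature implies no conjugate points
-/

open scoped Manifold ContDiff Topology
open Set Filter

set_option maxSynthPendingDepth 3

noncomputable section

namespace Vale.Agent.P219.RG

variable {E : Type} [NormedAddCommGroup E] [NormedSpace ℝ E]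

/-- `x ↦ R(x,y)y` as a linear map -/
def curvOp (G : E → E →L[ℝ] E →L[ℝ] ℝ) (u y : E) : E →L[ℝ] E :=
  ((fderiv ℝ (chrisB G) u).flip y).flip y - (fderiv ℝ (chrisB G) u y).flip y
    + (chrisB G u).flip (chrisB G u y y) - (chrisB G u y) ∘L ((chrisB G u).flip y)

/-- the operator of the first order system satisfied by `(J, DJ)` -/
def jacOp (G : E → E →L[ℝ] E →L[ℝ] ℝ) (u y : E) : (E × E) →L[ℝ] (E × E) :=
  ((ContinuousLinearMap.snd ℝ E E) - (chrisB G u y) ∘L (ContinuousLinearMap.fst ℝ E E)).prod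
    (-((curvOp G u y) ∘L (ContinuousLinearMap.fst ℝ E E))
      - (chrisB G u y) ∘L (ContinuousLinearMap.snd ℝ E E))

variable [FiniteDimensional ℝ E]

theorem IsMetricOn.curvOp_apply {G : E → E →L[ℝ] E →L[ℝ] ℝ} {U : Set E} (h : IsMetricOn G U)
    {u : E} (hu : u ∈ U) (x y : E) : curvOp G u y x = curv G u x y y := by
  rw [h.curv_eq hu]
  simp [curvOp]

theorem IsMetricOn.continuousAt_jacOp {G : E → E →L[ℝ] E →L[ℝ] ℝ} {U : Set E}
    (h : IsMetricOn G U) {c y : ℝ → E} {t : ℝ} (ht : c t ∈ U) (hc : ContinuousAt c t)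
    (hy : ContinuousAt y t) : ContinuousAt (fun s => jacOp G (c s) (y s)) t := by
  have h1 : ContinuousAt (fun s => chrisB G (c s)) t :=
    ContinuousAt.comp (g := chrisB G) (h.contDiffAt_chrisB ht).continuousAt hc
  have h2 : ContinuousAt (fun s => fderiv ℝ (chrisB G) (c s)) t :=
    ContinuousAt.comp (g := fderiv ℝ (chrisB G))
      ((h.contDiffAt_chrisB ht).fderiv_right (m := 0) (by simp)).continuousAt hc
  have h3 : ContinuousAt (fun s => chrisB G (c s) (y s)) t := h1.clm_apply hy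
  have h4 : ContinuousAt (fun s => chrisB G (c s) (y s) (y s)) t := h3.clm_apply hy
  have h5 : ContinuousAt (fun s => (chrisB G (c s)).flip) t :=
    (ContinuousLinearMap.flipₗᵢ ℝ E E E).continuous.continuousAt.comp h1
  have h6 : ContinuousAt (fun s => (fderiv ℝ (chrisB G) (c s)).flip) t :=
    (ContinuousLinearMap.flipₗᵢ ℝ E E (E →L[ℝ] E)).continuous.continuousAt.comp h2
  have h7 : ContinuousAt (fun s => ((fderiv ℝ (chrisB G) (c s)).flip (y s)).flip) t :=
    (ContinuousLinearMap.flipₗᵢ ℝ E E E).continuous.continuousAt.comp (h6.clm_apply hy)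
  have h8 : ContinuousAt (fun s => (fderiv ℝ (chrisB G) (c s) (y s)).flip) t :=
    (ContinuousLinearMap.flipₗᵢ ℝ E E E).continuous.continuousAt.comp (h2.clm_apply hy)
  have hcu : ContinuousAt (fun s => curvOp G (c s) (y s)) t := by
    unfold curvOp
    refine ((h7.clm_apply hy).sub (h8.clm_apply hy)).add (h5.clm_apply h4) |>.sub ?_
    exact h3.clm_comp (h5.clm_apply hy)
  unfold jacOp
  have h9 : ContinuousAt (fun s => (ContinuousLinearMap.snd ℝ E E) -
      (chrisB G (c s) (y s)) ∘L (ContinuousLinearMap.fst ℝ E E)) t :=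
    continuousAt_const.sub (h3.clm_comp continuousAt_const)
  have h10 : ContinuousAt (fun s => -((curvOp G (c s) (y s)) ∘L (ContinuousLinearMap.fst ℝ E E))
      - (chrisB G (c s) (y s)) ∘L (ContinuousLinearMap.snd ℝ E E)) t :=
    (hcu.clm_comp continuousAt_const).neg.sub (h3.clm_comp continuousAt_const)
  exact (ContinuousLinearMap.prodₗᵢ (𝕜 := ℝ) (E := E × E) (F := E) (G := E)
    ℝ).continuous.continuousAt.comp (h9.prodMk h10)

variable {M : Type} [TopologicalSpace M] [ChartedSpace E M]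

theorem IsJacobi.hasDerivAt_pair {g : Metric E M} {γ : ℝ → M} {J : M → ℝ → E}
    (hJ : IsJacobi g γ J) {a : M} {t : ℝ} (ha : γ t ∈ (chartAt E a).source) :
    HasDerivAt (fun s => (J a s, covD (g.coef a) (cc γ a) (J a) s))
      (jacOp (g.coef a) (cc γ a t) (deriv (cc γ a) t)
        (J a t, covD (g.coef a) (cc γ a) (J a) t)) t := by
  obtain ⟨h1, h2, h3⟩ := hJ.eqn a t ha
  have h4 : deriv (J a) t = covD (g.coef a) (cc γ a) (J a) t -
      chris (g.coef a) (cc γ a t) (deriv (cc γ a) t) (J a t) := by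
    unfold covD; abel
  have h5 : deriv (covD (g.coef a) (cc γ a) (J a)) t =
      - curv (g.coef a) (cc γ a t) (J a t) (deriv (cc γ a) t) (deriv (cc γ a) t) -
      chris (g.coef a) (cc γ a t) (deriv (cc γ a) t) (covD (g.coef a) (cc γ a) (J a) t) := by
    rw [← eq_neg_of_add_eq_zero_left h3]
    conv_rhs => rw [covD]
    abel
  have h6 := h1.hasDerivAt.prodMk h2.hasDerivAt
  refine h6.congr_deriv ?_
  rw [h4, h5]
  simp [jacOp, (g.isMetricOn' a).curvOp_apply (cc_mem ha), chrisB_apply]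

theorem IsJacobi.exists_nbhd {g : Metric E M} {γ : ℝ → M} (h : IsGeodesic g γ)
    {J : M → ℝ → E} (hJ : IsJacobi g γ J) {a : M} {t₀ : ℝ}
    (ha : γ t₀ ∈ (chartAt E a).source) :
    ∃ ε > 0, (∀ t ∈ Ioo (t₀ - ε) (t₀ + ε), γ t ∈ (chartAt E a).source) ∧
      ∀ s ∈ Ioo (t₀ - ε) (t₀ + ε), J a s = 0 → covD (g.coef a) (cc γ a) (J a) s = 0 →
        ∀ t ∈ Ioo (t₀ - ε) (t₀ + ε), J a t = 0 := by
  have hgt := h.eqn a t₀ (mem_univ _) ha
  have h1 : ContinuousAt (fun s => jacOp (g.coef a) (cc γ a s) (deriv (cc γ a) s)) t₀ :=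
    (g.isMetricOn' a).continuousAt_jacOp (cc_mem ha) hgt.1.continuousAt hgt.2.1.continuousAt
  obtain ⟨K, hK⟩ : ∃ K : ℝ, ∀ᶠ s in 𝓝 t₀,
      ‖jacOp (g.coef a) (cc γ a s) (deriv (cc γ a) s)‖ ≤ K := by
    refine ⟨‖jacOp (g.coef a) (cc γ a t₀) (deriv (cc γ a) t₀)‖ + 1, ?_⟩
    have := h1.norm.eventually (Iio_mem_nhds (lt_add_one _))
    exact this.mono (fun s hs => le_of_lt hs)
  have h2 := (eventually_mem_source h.continuous.continuousAt ha).and hK
  obtain ⟨ε, hε, hball⟩ := Metric.eventually_nhds_iff_ball.1 h2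
  have hI : ∀ t, t ∈ Ioo (t₀ - ε) (t₀ + ε) → t ∈ Metric.ball t₀ ε := by
    intro t ht
    rw [Real.ball_eq_Ioo]; exact ht
  refine ⟨ε, hε, fun t ht => (hball t (hI t ht)).1, fun s hs hs1 hs2 t ht => ?_⟩
  have hu := ODE_solution_unique_of_mem_Ioo
    (v := fun s x => jacOp (g.coef a) (cc γ a s) (deriv (cc γ a) s) x) (s := fun _ => univ)
    (K := Real.toNNReal K) (f := fun s => (J a s, covD (g.coef a) (cc γ a) (J a) s))
    (g := fun _ => 0) (a := t₀ - ε) (b := t₀ + ε) (t₀ := s) ?_ hs ?_ ?_ ?_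
  · have := hu ht
    exact congr_arg Prod.fst this
  · intro t ht
    refine LipschitzOnWith.of_dist_le_mul (fun x _ y _ => ?_)
    rw [dist_eq_norm, dist_eq_norm, ← map_sub]
    refine (ContinuousLinearMap.le_opNorm _ _).trans ?_
    gcongr
    exact (hball t (hI t ht)).2.trans (Real.le_coe_toNNReal K)
  · intro t ht
    exact ⟨hJ.hasDerivAt_pair (hball t (hI t ht)).1, mem_univ _⟩
  · intro t ht
    refine ⟨?_, mem_univ _⟩
    simpa using hasDerivAt_const t (0 : E × E)
  · simp [hs1, hs2]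

omit [FiniteDimensional ℝ E] in
theorem prodF_self_eq_zero {g : Metric E M} {γ : ℝ → M} {J : M → ℝ → E} (hJ : Compat γ J)
    {a : M} {t : ℝ} (ha : γ t ∈ (chartAt E a).source) : prodF g γ J J t = 0 ↔ J a t = 0 := by
  rw [prodF_eq g hJ hJ ha]
  constructor
  · exact (g.isMetricOn' a).eq_zero (cc_mem ha)
  · intro h; rw [h]; simp

/-- unique continuation for Jacobi fields -/
theorem IsJacobi.zero_of_eventually {g : Metric E M} {γ : ℝ → M} (h : IsGeodesic g γ)
    {J : M → ℝ → E} (hJ : IsJacobi g γ J) {t₀ : ℝ}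
    (h0 : ∀ᶠ s in 𝓝 t₀, prodF g γ J J s = 0) :
    ∀ a t, γ t ∈ (chartAt E a).source → J a t = 0 := by
  set Z : Set ℝ := {t | ∀ᶠ s in 𝓝 t, prodF g γ J J s = 0} with hZ
  have hopen : IsOpen Z := by
    rw [isOpen_iff_mem_nhds]
    intro t ht
    exact eventually_eventually_nhds.2 ht
  have hclosed : IsClosed Z := by
    rw [← closure_subset_iff_isClosed]
    intro t ht
    have ha := mem_chart_source E (γ t)
    obtain ⟨ε, hε, hsrc, huniq⟩ := hJ.exists_nbhd h ha
    obtain ⟨s, hsZ, hs⟩ := Metric.mem_closure_iff.1 ht ε hε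
    have hsI : s ∈ Ioo (t - ε) (t + ε) := by
      rw [← Real.ball_eq_Ioo, Metric.mem_ball, dist_comm]; exact hs
    have hloc : (fun x => J (γ t) x) =ᶠ[𝓝 s] fun _ => 0 := by
      filter_upwards [hsZ, Ioo_mem_nhds hsI.1 hsI.2] with x hx hxI
      exact (prodF_self_eq_zero hJ.compat' (hsrc x hxI)).1 hx
    have hcov : covD (g.coef (γ t)) (cc γ (γ t)) (J (γ t)) s = 0 := by
      have h1 : deriv (J (γ t)) s = 0 := by
        have := hloc.deriv_eq
        simpa using this
      have h2 : J (γ t) s = 0 := hloc.self_of_nhds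
      unfold covD
      rw [h1, h2, ← chrisB_apply]; simp
    have hall := huniq s hsI hloc.self_of_nhds hcov
    change ∀ᶠ s in 𝓝 t, prodF g γ J J s = 0
    filter_upwards [Ioo_mem_nhds (show t - ε < t by linarith) (show t < t + ε by linarith)]
      with x hx
    exact (prodF_self_eq_zero hJ.compat' (hsrc x hx)).2 (hall x hx)
  have huniv : Z = univ := IsClopen.eq_univ ⟨hclosed, hopen⟩ ⟨t₀, h0⟩
  intro a t ha
  have ht : t ∈ Z := by rw [huniv]; exact mem_univ _
  have ht' : ∀ᶠ s in 𝓝 t, prodF g γ J J s = 0 := ht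
  exact (prodF_self_eq_zero hJ.compat' ha).1 ht'.self_of_nhds

/-- a Jacobi field with vanishing initial data vanishes -/
theorem IsJacobi.zero_of_initial {g : Metric E M} {γ : ℝ → M} (h : IsGeodesic g γ)
    {J : M → ℝ → E} (hJ : IsJacobi g γ J) {a : M} {t₀ : ℝ}
    (ha : γ t₀ ∈ (chartAt E a).source) (h0 : J a t₀ = 0)
    (h1 : covD (g.coef a) (cc γ a) (J a) t₀ = 0) :
    ∀ b t, γ t ∈ (chartAt E b).source → J b t = 0 := by
  obtain ⟨ε, hε, hsrc, huniq⟩ := hJ.exists_nbhd h ha
  have h2 := huniq t₀ ⟨by linarith, by linarith⟩ h0 h1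
  refine hJ.zero_of_eventually h (t₀ := t₀) ?_
  filter_upwards [Ioo_mem_nhds (show t₀ - ε < t₀ by linarith) (show t₀ < t₀ + ε by linarith)]
      with x hx
  exact (prodF_self_eq_zero hJ.compat' (hsrc x hx)).2 (h2 x hx)

end Vale.Agent.P219.RG
end
end
end
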