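import Vale.Agent.P219.H381.Pull
import Vale.Agent.P219.H381.Dom
import Vale.Agent.P219.H381.Hyp2
import Vale.Agent.P219.H381.FDefs

/-!
# P219: the Riemannian volume of a manifold in a global chart and in the local charts
-/

open scoped Manifold ContDiff Topology ENNReal
open Set Filter MeasureTheory

set_option maxSynthPendingDepth 3
set_option linter.all false

noncomputable section

namespace Vale.Agent.P219H381

open Vale.Agent.P219.H381

open Vale.Agent.P255 (RMetric coefIn innerAt Gam Riem IsGeo)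
open Vale.Agent.P219.RG (coefL IsMetricOn)
open Vale.Agent.P219.Co (E pd RiemMetric SmoothDomain volDensity gradNorm leb riemVol riemArea)
open Vale.Agent.P219.Mfd (gram diffIn)

variable {n : ℕ} {M : Type} [TopologicalSpace M] [ChartedSpace (E n) M]
  [IsManifold 𝓘(ℝ, E n) ∞ M]

/-- the metric in a global chart -/
abbrev pl (g : RMetric (E n) M) (Ψ : E n ≃ₘ^∞⟮𝓘(ℝ, E n), 𝓘(ℝ, E n)⟯ M) : RiemMetric n :=
  toRiem (pb g Ψ) (isMetricOn_pb Ψ g)

variable (g : RMetric (E n) M) (Ψ : E n ≃ₘ^∞⟮𝓘(ℝ, E n), 𝓘(ℝ, E n)⟯ M) (a : M)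

theorem chgM : Chg (Ψ ⁻¹' (chartAt (E n) a).source) (chartAt (E n) a).target (tau Ψ a)
    (sig Ψ.symm a) where
  openS := (chartAt (E n) a).open_source.preimage Ψ.continuous
  openT := (chartAt (E n) a).open_target
  mapS x hx := (chartAt (E n) a).map_source hx
  mapT u hu := sig_mem Ψ hu
  left x hx := sig_tau Ψ hx
  right u hu := tau_sig Ψ hu
  smS x hx := (contDiffAt_tau Ψ hx).contDiffWithinAt
  smT u hu := (contDiffAt_sig Ψ hu).contDiffWithinAt

/-- the Jacobian matrix -/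
def jac (L : E n →L[ℝ] E n) : Matrix (Fin n) (Fin n) ℝ := Matrix.of fun k i => L (bv i) k

theorem jac_det (L : E n →L[ℝ] E n) : (jac L).det = L.det := by
  have h1 : jac L = LinearMap.toMatrix (EuclideanSpace.basisFun (Fin n) ℝ).toBasis
      (EuclideanSpace.basisFun (Fin n) ℝ).toBasis (L : E n →ₗ[ℝ] E n) := by
    ext k i
    rw [LinearMap.toMatrix_apply]
    simp [jac]
  rw [h1, LinearMap.det_toMatrix]

variable {a}

theorem pl_g {x : E n} (hx : Ψ x ∈ (chartAt (E n) a).source) :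
    (pl g Ψ).g x = (jac (fderiv ℝ (tau Ψ a) x)).transpose * gram g a (tau Ψ a x) *
      jac (fderiv ℝ (tau Ψ a) x) := by
  ext i j
  rw [toRiem_apply, ← pb_eq Ψ g hx]
  have hm := isMetricOn_coefL g a
  have hu : tau Ψ a x ∈ (chartAt (E n) a).target := (chartAt (E n) a).map_source hx
  rw [H_sum_left, Matrix.mul_assoc, Matrix.mul_apply]
  refine Finset.sum_congr rfl fun k _ => ?_
  rw [hm.symm _ hu, H_sum_left, Matrix.transpose_apply, Matrix.mul_apply]
  congr 1
  refine Finset.sum_congr rfl fun l _ => ?_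
  rw [hm.symm _ hu, mul_comm]
  rfl

theorem det_pl {x : E n} (hx : Ψ x ∈ (chartAt (E n) a).source) :
    ((pl g Ψ).g x).det = (fderiv ℝ (tau Ψ a) x).det ^ 2 * (gram g a (tau Ψ a x)).det := by
  rw [pl_g g Ψ hx, Matrix.det_mul, Matrix.det_mul, Matrix.det_transpose, jac_det]
  ring

theorem volDensity_pl {x : E n} (hx : Ψ x ∈ (chartAt (E n) a).source) :
    volDensity (pl g Ψ) x =
      |(fderiv ℝ (tau Ψ a) x).det| * √(gram g a (tau Ψ a x)).det := by
  unfold volDensity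
  rw [det_pl g Ψ hx, Real.sqrt_mul (sq_nonneg _), Real.sqrt_sq_eq_abs]

include g in
theorem det_ne_zero {x : E n} (hx : Ψ x ∈ (chartAt (E n) a).source) :
    (fderiv ℝ (tau Ψ a) x).det ≠ 0 := by
  intro h0
  have h1 := det_pl g Ψ hx
  rw [h0] at h1
  have h2 := ((pl g Ψ).pos x).det_pos
  rw [h1] at h2
  simp at h2

open Matrix in
theorem quad_inv {A Γ : Matrix (Fin n) (Fin n) ℝ} (hA : IsUnit A.det) (q : Fin n → ℝ) :
    (A.transpose *ᵥ q) ⬝ᵥ (A.transpose * Γ * A)⁻¹ *ᵥ (A.transpose *ᵥ q) = q ⬝ᵥ Γ⁻¹ *ᵥ q := by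
  have hT : IsUnit A.transpose.det := by rw [Matrix.det_transpose]; exact hA
  rw [Matrix.mul_inv_rev, Matrix.mul_inv_rev, ← Matrix.mulVec_mulVec, ← Matrix.mulVec_mulVec,
    Matrix.mulVec_mulVec q A.transpose⁻¹ A.transpose, Matrix.nonsing_inv_mul _ hT,
    Matrix.one_mulVec]
  conv_lhs => rw [Matrix.mulVec_transpose, ← Matrix.dotProduct_mulVec]
  rw [Matrix.mulVec_mulVec, Matrix.mul_nonsing_inv _ hA, Matrix.one_mulVec]

theorem pd_comp_sig {ρ : E n → ℝ} {x : E n} (hx : Ψ x ∈ (chartAt (E n) a).source)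
    (hρ : DifferentiableAt ℝ ρ x) :
    (fun i => pd i ρ x) = (jac (fderiv ℝ (tau Ψ a) x)).transpose.mulVec
      (fun k => pd k (fun u => ρ (sig Ψ.symm a u)) (tau Ψ a x)) := by
  have hu : tau Ψ a x ∈ (chartAt (E n) a).target := (chartAt (E n) a).map_source hx
  have hs := (contDiffAt_sig Ψ hu).differentiableAt (by simp)
  have h1 : HasFDerivAt (fun u => ρ (sig Ψ.symm a u))
      ((fderiv ℝ ρ x).comp (fderiv ℝ (sig Ψ.symm a) (tau Ψ a x))) (tau Ψ a x) := by
    have h2 : HasFDerivAt ρ (fderiv ℝ ρ x) (sig Ψ.symm a (tau Ψ a x)) := by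
      rw [sig_tau Ψ hx]; exact hρ.hasFDerivAt
    exact h2.comp _ hs.hasFDerivAt
  funext i
  have h3 : pd i ρ x = fderiv ℝ (fun u => ρ (sig Ψ.symm a u)) (tau Ψ a x)
      (fderiv ℝ (tau Ψ a) x (bv i)) := by
    rw [pd_eq hρ, h1.fderiv]
    simp only [ContinuousLinearMap.comp_apply]
    rw [fderiv_sig_tau Ψ hx]
  rw [h3]
  conv_lhs => rw [← sum_bv (fderiv ℝ (tau Ψ a) x (bv i))]
  rw [map_sum]
  simp only [map_smul, smul_eq_mul, Matrix.mulVec, dotProduct, Matrix.transpose_apply, jac,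
    Matrix.of_apply]
  refine Finset.sum_congr rfl fun k _ => ?_
  rw [pd_eq h1.differentiableAt]

open Matrix in
theorem gradNorm_pl {ρ : E n → ℝ} {x : E n} (hx : Ψ x ∈ (chartAt (E n) a).source)
    (hρ : DifferentiableAt ℝ ρ x) :
    gradNorm (pl g Ψ) ρ x = √((fun k => pd k (fun u => ρ (sig Ψ.symm a u)) (tau Ψ a x)) ⬝ᵥ
      (gram g a (tau Ψ a x))⁻¹ *ᵥ (fun k => pd k (fun u => ρ (sig Ψ.symm a u)) (tau Ψ a x))) := by
  unfold gradNorm
  rw [pd_comp_sig Ψ hx hρ, pl_g g Ψ hx, quad_inv]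
  rw [jac_det]
  exact isUnit_iff_ne_zero.2 (det_ne_zero g Ψ hx)

/-- the chart image of a set -/
theorem chart_image (s : Set M) : (chartAt (E n) a) '' s = tau Ψ a '' (Ψ ⁻¹' s) := by
  ext u
  constructor
  · rintro ⟨p, hp, rfl⟩
    refine ⟨Ψ.symm p, ?_, ?_⟩
    · change Ψ (Ψ.symm p) ∈ s
      rw [Ψ.apply_symm_apply]; exact hp
    · change chartAt (E n) a (Ψ (Ψ.symm p)) = _
      rw [Ψ.apply_symm_apply]
  · rintro ⟨x, hx, rfl⟩
    exact ⟨Ψ x, hx, rfl⟩

variable [MeasurableSpace M] [BorelSpace M]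

theorem measurable_Psi : Measurable Ψ := Ψ.continuous.measurable

/-- the Riemannian volume of a set in a local chart, computed in the global chart -/
theorem vol_chart {s : Set M} (hs : MeasurableSet s) (hsa : s ⊆ (chartAt (E n) a).source) :
    ∫⁻ u in (chartAt (E n) a) '' s, ENNReal.ofReal √(gram g a u).det =
      riemVol (pl g Ψ) (Ψ ⁻¹' s) := by
  have hs' : MeasurableSet (Ψ ⁻¹' s) := measurable_Psi Ψ hs
  rw [chart_image Ψ s, chg_volume (chgM Ψ a) hs' (preimage_mono hsa)]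
  unfold riemVol leb
  refine setLIntegral_congr_fun hs' fun x hx => ?_
  rw [← ENNReal.ofReal_mul (abs_nonneg _), volDensity_pl g Ψ (hsa hx)]

end Vale.Agent.P219H381
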